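import Mathlib

/-!
P212, swindle: the algebra. A family of linear maps which compose like matrix units moves an
idempotent from one block to another.
-/

namespace VP212.Swindle

open Matrix

/-- Algebraic equivalence. -/
def Eqv {R : Type*} [Mul R] (x y : R) : Prop := ∃ a b, a * b = x ∧ b * a = y

theorem Eqv.symm {R : Type*} [Mul R] {x y : R} : Eqv x y → Eqv y x
  | ⟨a, b, h, h'⟩ => ⟨b, a, h', h⟩

theorem Eqv.refl {R : Type*} [Mul R] {x : R} (h : x * x = x) : Eqv x x := ⟨x, x, h, h⟩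

theorem Eqv.trans {R : Type*} [Semigroup R] {x y z : R} (hx : x * x = x) (hz : z * z = z)
    (h : Eqv x y) (h' : Eqv y z) : Eqv x z := by
  obtain ⟨a, b, hab, hba⟩ := h
  obtain ⟨c, d, hcd, hdc⟩ := h'
  refine ⟨a * c, d * b, ?_, ?_⟩
  · rw [show a * c * (d * b) = a * (c * d) * b by simp [mul_assoc], hcd, ← hba,
      show a * (b * a) * b = a * b * (a * b) by simp [mul_assoc], hab, hx]
  · rw [show d * b * (a * c) = d * (b * a) * c by simp [mul_assoc], hba, ← hcd,
      show d * (c * d) * c = d * c * (d * c) by simp [mul_assoc], hdc, hz]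

theorem Eqv.sum {ι κ R : Type*} [Fintype ι] [Fintype κ] [Ring R] {x y : Matrix ι ι R}
    {x' y' : Matrix κ κ R} (h : Eqv x y) (h' : Eqv x' y') :
    Eqv (fromBlocks x 0 0 x') (fromBlocks y 0 0 y') := by
  obtain ⟨a, b, hab, hba⟩ := h
  obtain ⟨c, d, hcd, hdc⟩ := h'
  exact ⟨fromBlocks a 0 0 c, fromBlocks b 0 0 d, by simp [fromBlocks_multiply, hab, hcd],
    by simp [fromBlocks_multiply, hba, hdc]⟩

theorem sum_idem {ι κ R : Type*} [Fintype ι] [Fintype κ] [Ring R] {x : Matrix ι ι R}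
    {x' : Matrix κ κ R} (h : x * x = x) (h' : x' * x' = x') :
    fromBlocks x 0 0 x' * fromBlocks x 0 0 x' = fromBlocks x 0 0 x' := by
  simp [fromBlocks_multiply, h, h']

theorem Eqv.swap {ι R : Type*} [Fintype ι] [Ring R] {x y : Matrix ι ι R} (hx : x * x = x)
    (hy : y * y = y) : Eqv (fromBlocks x 0 0 y) (fromBlocks y 0 0 x) :=
  ⟨fromBlocks 0 x y 0, fromBlocks 0 y x 0, by simp [fromBlocks_multiply, hx, hy],
    by simp [fromBlocks_multiply, hx, hy]⟩

theorem Eqv.compl {ι R : Type*} [Fintype ι] [DecidableEq ι] [Ring R] {x : Matrix ι ι R}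
    (hx : x * x = x) :
    Eqv (fromBlocks x 0 0 (1 - x)) (fromBlocks (1 : Matrix ι ι R) 0 0 (0 : Matrix ι ι R)) :=
  ⟨fromBlocks x 0 (1 - x) 0, fromBlocks x (1 - x) 0 0,
    by simp [fromBlocks_multiply, hx, mul_sub, sub_mul],
    by simp [fromBlocks_multiply, hx, mul_sub, sub_mul]⟩

theorem Eqv.reindex {ι κ R : Type*} [Fintype ι] [Fintype κ] [Ring R] (e : ι ≃ κ)
    {x y : Matrix ι ι R} (h : Eqv x y) : Eqv (x.reindex e e) (y.reindex e e) := by
  obtain ⟨a, b, hab, hba⟩ := h
  refine ⟨a.reindex e e, b.reindex e e, ?_, ?_⟩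
  · simp [submatrix_mul_equiv, hab]
  · simp [submatrix_mul_equiv, hba]

theorem telescope {M : Type*} [Semigroup M] {S S' D E E' F F' U V : M}
    (hD : D * D = U) (hE : E * (U * E') = U) (hF : F * (U * F') = U) (hS : S * (U * S') = V) :
    S * (E * (F * (E * D))) * (D * E' * F' * E' * S') = V := by
  rw [show S * (E * (F * (E * D))) * (D * E' * F' * E' * S') =
      S * ((E * ((F * ((E * ((D * D) * E')) * F')) * E')) * S') by simp only [mul_assoc],
    hD, hE, hF, hE, hS]

theorem telescope' {M : Type*} [Semigroup M] {S S' D E E' F F' U : M}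
    (hS : S' * S = U) (hE : E' * (U * E) = U) (hF : F' * (U * F) = U) (hD : D * (U * D) = U) :
    D * E' * F' * E' * S' * (S * (E * (F * (E * D)))) = U := by
  rw [show D * E' * F' * E' * S' * (S * (E * (F * (E * D)))) =
      D * ((E' * ((F' * ((E' * ((S' * S) * E)) * F)) * E)) * D) by simp only [mul_assoc],
    hS, hE, hF, hE, hD]

section Rotate

variable {ι R : Type*} [Fintype ι] [Ring R]

/-- The six factors of the rotation of `g` into the block of `p`. -/
def rotA (g p : Matrix ι ι R) : Matrix (ι ⊕ ι) (ι ⊕ ι) R :=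
  fromBlocks 0 p g 0 * (fromBlocks g (g * p) 0 p *
    (fromBlocks g 0 (-(p * g)) p * (fromBlocks g (g * p) 0 p * fromBlocks (-g) 0 0 p)))

/-- The inverse of `rotA`. -/
def rotB (g p : Matrix ι ι R) : Matrix (ι ⊕ ι) (ι ⊕ ι) R :=
  fromBlocks (-g) 0 0 p * fromBlocks g (-(g * p)) 0 p * fromBlocks g 0 (p * g) p *
    fromBlocks g (-(g * p)) 0 p * fromBlocks 0 g p 0

theorem rot_mul {g p : Matrix ι ι R} (hg : g * g = g) (hp : p * p = p) :
    rotA g p * rotB g p = fromBlocks p 0 0 g ∧ rotB g p * rotA g p = fromBlocks g 0 0 p := by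
  have e1 : g * (g * p) = g * p := by rw [← mul_assoc, hg]
  have e2 : g * p * p = g * p := by rw [mul_assoc, hp]
  have e3 : p * (p * g) = p * g := by rw [← mul_assoc, hp]
  have e4 : p * g * g = p * g := by rw [mul_assoc, hg]
  refine ⟨telescope (U := fromBlocks g 0 0 p) ?_ ?_ ?_ ?_,
    telescope' (U := fromBlocks g 0 0 p) ?_ ?_ ?_ ?_⟩ <;>
    simp [fromBlocks_multiply, hg, hp, e1, e2, e3, e4]

theorem rot_map {S : Type*} [Ring S] (φ : R →+* S) {g p : Matrix ι ι R} {q : Matrix ι ι S}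
    (hg : g.map φ = q) (hp : p.map φ = q) (hq : q * q = q) :
    (rotA g p).map φ = fromBlocks q 0 0 q ∧ (rotB g p).map φ = fromBlocks q 0 0 q := by
  have hn : ∀ m : Matrix ι ι R, (-m).map φ = -(m.map φ) := fun m => by ext i j; simp
  refine ⟨?_, ?_⟩ <;> simp only [rotA, rotB, Matrix.map_mul, fromBlocks_map, hn, hg, hp] <;>
    simp [fromBlocks_multiply, hq]

end Rotate

section Corner

variable {A B J κ : Type} [NonUnitalRing A] [Module ℂ A] [IsScalarTower ℂ A A]
  [SMulCommClass ℂ A A] [NonUnitalRing B] [Module ℂ B] [IsScalarTower ℂ B B]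
  [SMulCommClass ℂ B B]

/-- The scalar matrices. -/
def sc (Q : Matrix κ κ ℂ) : Matrix κ κ (Unitization ℂ B) := Q.map Unitization.inl

/-- The matrices without scalar part. -/
def toU (n : Matrix κ κ B) : Matrix κ κ (Unitization ℂ B) := n.map fun b => (b : Unitization ℂ B)

/-- The transport of the non-scalar part. -/
def rho (b : κ → J) (f : J → J → A →ₗ[ℂ] B) (Y : Matrix κ κ (Unitization ℂ A)) :
    Matrix κ κ (Unitization ℂ B) :=
  Matrix.of fun x y => (f (b x) (b y) (Y x y).snd : Unitization ℂ B)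

theorem fst_sum {C ι : Type*} [AddCommMonoid C] [Module ℂ C] (s : Finset ι)
    (g : ι → Unitization ℂ C) : (∑ i ∈ s, g i).fst = ∑ i ∈ s, (g i).fst := by
  classical
  induction s using Finset.induction with
  | empty => simp
  | insert a s ha ih => simp [Finset.sum_insert ha, ih]

theorem snd_sum {C ι : Type*} [AddCommMonoid C] [Module ℂ C] (s : Finset ι)
    (g : ι → Unitization ℂ C) : (∑ i ∈ s, g i).snd = ∑ i ∈ s, (g i).snd := by
  classical
  induction s using Finset.induction with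
  | empty => simp
  | insert a s ha ih => simp [Finset.sum_insert ha, ih]

variable [Fintype κ] {b : κ → J} {f : J → J → A →ₗ[ℂ] B} {Q : Matrix κ κ ℂ}
  {n : Matrix κ κ B}

theorem rho_mul (hf : ∀ i j k x y, f i j x * f j k y = f i k (x * y))
    (hQb : ∀ x y, Q x y ≠ 0 → b x = b y) {Y Y' : Matrix κ κ (Unitization ℂ A)}
    (hY : ∀ x y, (Y x y).fst = Q x y) (hY' : ∀ x y, (Y' x y).fst = Q x y) :
    rho b f (Y * Y') = sc Q * rho b f Y' + rho b f Y * sc Q + rho b f Y * rho b f Y' := by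
  ext x z
  · simp [rho, sc, Matrix.mul_apply, fst_sum]
  · simp only [rho, sc, Matrix.mul_apply, Matrix.of_apply, Matrix.add_apply, Matrix.map_apply,
      snd_sum, Unitization.snd_add, Unitization.snd_inr, Unitization.fst_inr, Unitization.snd_mul,
      Unitization.fst_inl, Unitization.snd_inl, hY, hY', map_sum, map_add, map_smul,
      smul_zero, zero_smul, mul_zero, zero_mul, add_zero, zero_add, ← Finset.sum_add_distrib]
    refine Finset.sum_congr rfl fun w _ => ?_
    have h1 : Q x w • f (b x) (b z) (Y' w z).snd = Q x w • f (b w) (b z) (Y' w z).snd := by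
      by_cases h : Q x w = 0
      · simp [h]
      · rw [hQb x w h]
    have h2 : Q w z • f (b x) (b z) (Y x w).snd = Q w z • f (b x) (b w) (Y x w).snd := by
      by_cases h : Q w z = 0
      · simp [h]
      · rw [hQb w z h]
    rw [h1, h2, hf]

theorem rho_perp_left (hl : ∀ x w c y, n x w * f (b w) c y = 0)
    (Y : Matrix κ κ (Unitization ℂ A)) : toU n * rho b f Y = 0 := by
  refine Matrix.ext fun x z => ?_
  rw [Matrix.mul_apply, Matrix.zero_apply]
  refine Finset.sum_eq_zero fun w _ => ?_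
  simp [toU, rho, ← Unitization.inr_mul, hl]

theorem rho_perp_right (hr : ∀ x w c y, f c (b x) y * n x w = 0)
    (Y : Matrix κ κ (Unitization ℂ A)) : rho b f Y * toU n = 0 := by
  refine Matrix.ext fun x z => ?_
  rw [Matrix.mul_apply, Matrix.zero_apply]
  refine Finset.sum_eq_zero fun w _ => ?_
  simp [toU, rho, ← Unitization.inr_mul, hr]

theorem chi_mul (hf : ∀ i j k x y, f i j x * f j k y = f i k (x * y))
    (hQb : ∀ x y, Q x y ≠ 0 → b x = b y)
    (hl : ∀ x w c y, n x w * f (b w) c y = 0) (hr : ∀ x w c y, f c (b x) y * n x w = 0)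
    (hP : (sc Q + toU n) * (sc Q + toU n) = sc Q + toU n)
    {Y Y' : Matrix κ κ (Unitization ℂ A)}
    (hY : ∀ x y, (Y x y).fst = Q x y) (hY' : ∀ x y, (Y' x y).fst = Q x y) :
    (sc Q + toU n + rho b f Y) * (sc Q + toU n + rho b f Y') =
      sc Q + toU n + rho b f (Y * Y') := by
  rw [rho_mul hf hQb hY hY']
  conv_lhs => rw [add_mul, mul_add (sc Q + toU n), mul_add (rho b f Y) (sc Q + toU n), hP,
    add_mul (sc Q), mul_add (rho b f Y) (sc Q), rho_perp_left hl, rho_perp_right hr]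
  abel

end Corner

section Move

variable {A B ι : Type} [NonUnitalRing A] [Module ℂ A] [IsScalarTower ℂ A A]
  [SMulCommClass ℂ A A] [NonUnitalRing B] [Module ℂ B] [IsScalarTower ℂ B B]
  [SMulCommClass ℂ B B] [Fintype ι]

/-- The block of an index. -/
def blk {ι : Type} : ι ⊕ ι → Bool := Sum.elim (fun _ => false) fun _ => true

/-- A matrix over `A` pushed forward to the scalar matrix plus its image. -/
def amp (q : Matrix ι ι ℂ) (f : A →ₗ[ℂ] B) (m : Matrix ι ι A) : Matrix ι ι (Unitization ℂ B) :=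
  sc q + toU (m.map f)

theorem eqv_move (q : Matrix ι ι ℂ) (hq : q * q = q) (m : Matrix ι ι A)
    (hm : (sc q + toU m) * (sc q + toU m) = (sc q + toU m : Matrix ι ι (Unitization ℂ A)))
    (f : Bool → Bool → A →ₗ[ℂ] B) (hf : ∀ i j k x y, f i j x * f j k y = f i k (x * y))
    (n1 n2 : Matrix ι ι B)
    (h1 : (sc q + toU n1) * (sc q + toU n1) = (sc q + toU n1 : Matrix ι ι (Unitization ℂ B)))
    (h2 : (sc q + toU n2) * (sc q + toU n2) = (sc q + toU n2 : Matrix ι ι (Unitization ℂ B)))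
    (l1 : ∀ i j c y, n1 i j * f false c y = 0) (r1 : ∀ i j c y, f c false y * n1 i j = 0)
    (l2 : ∀ i j c y, n2 i j * f true c y = 0) (r2 : ∀ i j c y, f c true y * n2 i j = 0) :
    Eqv (fromBlocks (sc q + toU n1 + toU (m.map (f false false))) 0 0 (sc q + toU n2))
      (fromBlocks (sc q + toU n1) 0 0 (sc q + toU n2 + toU (m.map (f true true)))) := by
  let Q : Matrix (ι ⊕ ι) (ι ⊕ ι) ℂ := fromBlocks q 0 0 q
  let n : Matrix (ι ⊕ ι) (ι ⊕ ι) B := fromBlocks n1 0 0 n2
  let g : Matrix ι ι (Unitization ℂ A) := sc q + toU m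
  let p : Matrix ι ι (Unitization ℂ A) := sc q
  have hp : p * p = p := by
    show sc q * sc q = sc q
    conv_rhs => rw [← hq]
    exact (Matrix.map_mul (f := algebraMap ℂ (Unitization ℂ A))).symm
  have hQb : ∀ x y, Q x y ≠ 0 → blk x = blk y := by
    rintro (x | x) (y | y) h <;> simp [Q, blk] at h ⊢
  have hl : ∀ x w c y, n x w * f (blk w) c y = 0 := by
    rintro (x | x) (w | w) c y <;> simp [n, blk, l1, l2]
  have hr : ∀ x w c y, f c (blk x) y * n x w = 0 := by
    rintro (x | x) (w | w) c y <;> simp [n, blk, r1, r2]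
  have hP' : (sc Q + toU n : Matrix (ι ⊕ ι) (ι ⊕ ι) (Unitization ℂ B)) =
      fromBlocks (sc q + toU n1) 0 0 (sc q + toU n2) := by
    ext (i | i) (j | j) <;> simp [Q, n, sc, toU]
  have hP : (sc Q + toU n) * (sc Q + toU n) =
      (sc Q + toU n : Matrix (ι ⊕ ι) (ι ⊕ ι) (Unitization ℂ B)) := by
    rw [hP']
    exact sum_idem h1 h2
  have hfst : ∀ M : Matrix ι ι (Unitization ℂ A), (∀ i j, (M i j).fst = q i j) →
      M.map (Unitization.fstHom ℂ A).toRingHom = q := fun M h => Matrix.ext h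
  obtain ⟨ha, hb⟩ := rot_map (Unitization.fstHom ℂ A).toRingHom (g := g) (p := p)
    (hfst g fun i j => by simp [g, sc, toU]) (hfst p fun i j => by simp [p, sc]) hq
  have ha' : ∀ x y, (rotA g p x y).fst = Q x y := fun x y => congrFun (congrFun ha x) y
  have hb' : ∀ x y, (rotB g p x y).fst = Q x y := fun x y => congrFun (congrFun hb x) y
  obtain ⟨hab, hba⟩ := rot_mul hm hp
  refine Eqv.symm ⟨sc Q + toU n + rho blk f (rotA g p), sc Q + toU n + rho blk f (rotB g p),
    ?_, ?_⟩
  · rw [chi_mul hf hQb hl hr hP ha' hb', hab, hP']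
    ext (i | i) (j | j) <;> simp [rho, blk, p, sc, toU]
  · rw [chi_mul hf hQb hl hr hP hb' ha', hba, hP']
    ext (i | i) (j | j) <;> simp [rho, blk, p, sc, toU]

end Move

end VP212.Swindle
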