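import Vale.Agent.P212.Swindle.Slots
import Vale.Agent.P212.Swindle.Move

/-!
P212, swindle: an index class supported on the roots vanishes on the collapsed space.
-/

open Matrix

namespace VP212.Swindle

variable {R0 : ℕ}

/-- The algebra of the roots. -/
abbrev RA (R0 : ℕ) : Type := ↥(ctrlAlg (rootCtrl R0))

/-- The Roe algebra of the collapsed space. -/
abbrev BA : Type := ↥(ctrlAlg baseCtrl)

/-- Transport between slots, on the algebras. -/
noncomputable def trL {K : Type} (φ ψ : Slot K) (h : Slot.Compat R0 φ ψ) : RA R0 →ₗ[ℂ] BA where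
  toFun X := ⟨Slot.tr φ ψ X, Slot.tr_mem φ ψ h X.2⟩
  map_add' X Y := Subtype.ext (Slot.tr_add φ ψ X Y)
  map_smul' c X := Subtype.ext (Slot.tr_smul φ ψ c X)

theorem trL_coe {K : Type} (φ ψ : Slot K) (h : Slot.Compat R0 φ ψ) (X : RA R0) :
    (trL φ ψ h X : Op Base) = Slot.tr φ ψ X := rfl

/-- The scalar part of the idempotent. -/
def qC : Matrix (Fin 2) (Fin 2) ℂ := diagonal ![0, 1]

theorem qC_idem : qC * qC = qC := by
  rw [qC, diagonal_mul_diagonal]
  congr 1
  ext i
  fin_cases i <;> simp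

section Abstract

variable {A B : Type} [NonUnitalRing A] [Module ℂ A] [IsScalarTower ℂ A A]
  [SMulCommClass ℂ A A] [NonUnitalRing B] [Module ℂ B] [IsScalarTower ℂ B B]
  [SMulCommClass ℂ B B]

theorem sc_idem : (sc qC : Matrix (Fin 2) (Fin 2) (Unitization ℂ B)) * sc qC = sc qC := by
  have h := Matrix.map_mul (L := qC) (M := qC) (f := algebraMap ℂ (Unitization ℂ B))
  rw [qC_idem] at h
  exact h.symm

theorem toU_zero {κ : Type} :
    (toU (0 : Matrix κ κ B) : Matrix κ κ (Unitization ℂ B)) = 0 := by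
  ext <;> simp [toU]

theorem toU_add {κ : Type} (x y : Matrix κ κ B) :
    (toU (x + y) : Matrix κ κ (Unitization ℂ B)) = toU x + toU y := by
  ext <;> simp [toU]

theorem amp_idem (m : Matrix (Fin 2) (Fin 2) A)
    (hm : (sc qC + toU m) * (sc qC + toU m) =
      (sc qC + toU m : Matrix (Fin 2) (Fin 2) (Unitization ℂ A)))
    (f : A →ₗ[ℂ] B) (hf : ∀ x y, f x * f y = f (x * y)) :
    (sc qC + toU (m.map f)) * (sc qC + toU (m.map f)) =
      (sc qC + toU (m.map f) : Matrix (Fin 2) (Fin 2) (Unitization ℂ B)) := by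
  have key : rho (fun _ => ()) (fun _ _ => f) (sc qC + toU m) = toU (m.map f) := by
    ext i j <;> simp [rho, toU, sc]
  have := chi_mul (b := fun _ : Fin 2 => ()) (f := fun _ _ => f) (Q := qC) (n := 0)
    (fun _ _ _ x y => hf x y) (fun _ _ _ => rfl)
    (fun _ _ _ _ => by simp) (fun _ _ _ _ => by simp)
    (by rw [toU_zero, add_zero, sc_idem]) (Y := sc qC + toU m) (Y' := sc qC + toU m)
    (fun x y => by simp [sc, toU]) (fun x y => by simp [sc, toU])
  rw [toU_zero, add_zero, hm, key] at this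
  exact this

theorem sum_assoc_diag {ι R : Type*} [Zero R] (x y z : Matrix ι ι R) :
    (fromBlocks (fromBlocks x 0 0 y) 0 0 z).reindex (Equiv.sumAssoc ι ι ι)
      (Equiv.sumAssoc ι ι ι) = fromBlocks x 0 0 (fromBlocks y 0 0 z) := by
  ext (i | i | i) (j | j | j) <;> rfl

/-- The chain of moves. -/
theorem eqv_chain (m : Matrix (Fin 2) (Fin 2) A)
    (hm : (sc qC + toU m) * (sc qC + toU m) =
      (sc qC + toU m : Matrix (Fin 2) (Fin 2) (Unitization ℂ A)))
    (fA fB : Bool → Bool → A →ₗ[ℂ] B)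
    (hA : ∀ i j k x y, fA i j x * fA j k y = fA i k (x * y))
    (hB : ∀ i j k x y, fB i j x * fB j k y = fB i k (x * y))
    (hl : ∀ c x y, fB false false x * fA true c y = 0)
    (hr : ∀ c x y, fA c true y * fB false false x = 0)
    (hsum : ∀ x, fB true true x = fB false false x + fA true true x) :
    Eqv (fromBlocks (sc qC + toU (m.map (fA false false))) 0 0
        (fromBlocks (1 : Matrix (Fin 2) (Fin 2) (Unitization ℂ B)) 0 0
          (0 : Matrix (Fin 2) (Fin 2) (Unitization ℂ B))))
      (fromBlocks (sc qC) 0 0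
        (fromBlocks (1 : Matrix (Fin 2) (Fin 2) (Unitization ℂ B)) 0 0
          (0 : Matrix (Fin 2) (Fin 2) (Unitization ℂ B)))) := by
  let q : Matrix (Fin 2) (Fin 2) (Unitization ℂ B) := sc qC
  let e : Matrix (Fin 2) (Fin 2) (Unitization ℂ B) := q + toU (m.map (fA false false))
  let G : Matrix (Fin 2) (Fin 2) (Unitization ℂ B) := q + toU (m.map (fB false false))
  let H : Matrix (Fin 2) (Fin 2) (Unitization ℂ B) := q + toU (m.map (fB true true))
  have hq : q * q = q := sc_idem
  have he : e * e = e := amp_idem m hm _ (hA _ _ _)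
  have hG : G * G = G := amp_idem m hm _ (hB _ _ _)
  have hq0 : (sc qC + toU (0 : Matrix (Fin 2) (Fin 2) B)) * (sc qC + toU 0) =
      (sc qC + toU 0 : Matrix (Fin 2) (Fin 2) (Unitization ℂ B)) := by
    rw [toU_zero, add_zero, sc_idem]
  have hH' : H = G + toU (m.map (fA true true)) := by
    show q + toU (m.map (fB true true)) = q + toU (m.map (fB false false)) + _
    rw [add_assoc, ← toU_add]
    congr 2
    ext i j : 1
    exact hsum _
  have h1 : Eqv (fromBlocks e 0 0 G) (fromBlocks q 0 0 H) := by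
    have := eqv_move qC qC_idem m hm fA hA 0 (m.map (fB false false)) hq0 hG
      (fun _ _ _ _ => zero_mul _) (fun _ _ _ _ => mul_zero _)
      (fun i j c y => hl c _ y) (fun i j c y => hr c _ y)
    rw [toU_zero, add_zero] at this
    rw [hH']
    exact this
  have h2 : Eqv (fromBlocks G 0 0 q) (fromBlocks q 0 0 H) := by
    have := eqv_move qC qC_idem m hm fB hB 0 0 hq0 hq0 (fun _ _ _ _ => zero_mul _)
      (fun _ _ _ _ => mul_zero _) (fun _ _ _ _ => zero_mul _) (fun _ _ _ _ => mul_zero _)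
    rw [toU_zero, add_zero] at this
    exact this
  have h3 : Eqv (fromBlocks G 0 0 q) (fromBlocks q 0 0 G) := Eqv.swap hG hq
  have h4 : Eqv (fromBlocks e 0 0 G) (fromBlocks q 0 0 G) :=
    (h1.trans (sum_idem he hG) (sum_idem hG hq) h2.symm).trans (sum_idem he hG) (sum_idem hq hG) h3
  have hG' : (1 - G) * (1 - G) = 1 - G := by simp [sub_mul, mul_sub, hG]
  have h10 : fromBlocks (1 : Matrix (Fin 2) (Fin 2) (Unitization ℂ B)) 0 0
      (0 : Matrix (Fin 2) (Fin 2) (Unitization ℂ B)) *
      fromBlocks (1 : Matrix (Fin 2) (Fin 2) (Unitization ℂ B)) 0 0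
        (0 : Matrix (Fin 2) (Fin 2) (Unitization ℂ B)) =
      fromBlocks (1 : Matrix (Fin 2) (Fin 2) (Unitization ℂ B)) 0 0
        (0 : Matrix (Fin 2) (Fin 2) (Unitization ℂ B)) :=
    sum_idem (one_mul 1) (zero_mul 0)
  have h5 := (h4.sum (Eqv.refl hG')).reindex (Equiv.sumAssoc (Fin 2) (Fin 2) (Fin 2))
  rw [sum_assoc_diag, sum_assoc_diag] at h5
  exact (((Eqv.refl he).sum (Eqv.compl hG).symm).trans (sum_idem he h10)
    (sum_idem hq (sum_idem hG hG')) h5).trans (sum_idem he h10) (sum_idem hq h10)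
    ((Eqv.refl hq).sum (Eqv.compl hG))

theorem map_block {C : Type*} [Ring C] [Algebra ℂ C] (Ψ : Unitization ℂ B →ₐ[ℂ] C)
    {a b : Matrix (Fin 2 ⊕ Fin 2 ⊕ Fin 2) (Fin 2 ⊕ Fin 2 ⊕ Fin 2) (Unitization ℂ B)}
    {e : Matrix (Fin 2) (Fin 2) (Unitization ℂ B)}
    (h : a * b = fromBlocks e 0 0 (fromBlocks (1 : Matrix (Fin 2) (Fin 2) (Unitization ℂ B)) 0 0
      (0 : Matrix (Fin 2) (Fin 2) (Unitization ℂ B)))) :
    a.map Ψ * b.map Ψ = fromBlocks (e.map Ψ) 0 0
      (fromBlocks (1 : Matrix (Fin 2) (Fin 2) C) 0 0 (0 : Matrix (Fin 2) (Fin 2) C)) := by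
  rw [← Matrix.map_mul, h, fromBlocks_map, fromBlocks_map]
  simp

end Abstract

/-- The equivalence before the representation. -/
theorem eqv_main (m : Matrix (Fin 2) (Fin 2) (RA R0))
    (hm : (sc qC + toU m) * (sc qC + toU m) =
      (sc qC + toU m : Matrix (Fin 2) (Fin 2) (Unitization ℂ (RA R0))))
    (h : Slot.Compat R0 rootSlot rootSlot) :
    Eqv (fromBlocks (sc qC + toU (m.map (trL rootSlot rootSlot h))) 0 0
        (fromBlocks (1 : Matrix (Fin 2) (Fin 2) (Unitization ℂ BA)) 0 0
          (0 : Matrix (Fin 2) (Fin 2) (Unitization ℂ BA))))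
      (fromBlocks (sc qC) 0 0
        (fromBlocks (1 : Matrix (Fin 2) (Fin 2) (Unitization ℂ BA)) 0 0
          (0 : Matrix (Fin 2) (Fin 2) (Unitization ℂ BA)))) := by
  let sA : Bool → Slot Unit := fun i => cond i (levU R0) rootSlot
  have nA : ∀ i, Near R0 (fun _ => 0) (sA i) := fun i => by
    cases i
    exacts [near_rootSlot R0, near_levU R0]
  let sB : Bool → Slot ℕ := fun i => cond i (lev R0 0) (lev R0 1)
  have nB : ∀ i, Near R0 id (sB i) := fun i => by
    cases i
    exacts [near_lev R0 1, near_lev R0 0]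
  exact eqv_chain m hm
    (fun i j => trL (sA i) (sA j) (compat_of_near R0 (nA i) (nA j)))
    (fun i j => trL (sB i) (sB j) (compat_of_near R0 (nB i) (nB j)))
    (fun i j k x y => Subtype.ext (Slot.tr_mul _ _ _ x.1 y.1))
    (fun i j k x y => Subtype.ext (Slot.tr_mul _ _ _ x.1 y.1))
    (fun c x y => Subtype.ext (Slot.tr_mul_disjoint _ _ _ _
      (fun a b e => disj_lev_levU R0 b a e.symm) _ _))
    (fun c x y => Subtype.ext (Slot.tr_mul_disjoint _ _ _ _ (disj_lev_levU R0) _ _))
    (fun x => Subtype.ext ((tr_lev_zero R0 x.1).trans (add_comm _ _)))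

theorem univ_ext {T : Op Base} {A A' : UnivSpace Base →L[ℂ] UnivSpace Base}
    (h : IsUnivImage T A) (h' : IsUnivImage T A') : A = A' :=
  ContinuousLinearMap.ext fun v => lp.ext (funext fun π => (h v π).trans (h' v π).symm)

theorem isRoe_of_mem (X : BA) : IsRoe (X : Op Base) := (isRoe_iff _).2 X.2

theorem exists_image (hN : MaxNormFinite Base) :
    ∃ Ψ : Unitization ℂ BA →ₐ[ℂ] (UnivSpace Base →L[ℂ] UnivSpace Base),
      (∀ w, Ψ w ∈ maxRoeUnit Base) ∧
      ∀ z (X : BA) A, IsUnivImage (X : Op Base) A →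
        Ψ (Unitization.inl z + (Unitization.inr X : Unitization ℂ BA)) = z • 1 + A := by
  choose img himg using fun X : BA => hN _ (isRoe_of_mem X)
  let φ : BA →ₙₐ[ℂ] (UnivSpace Base →L[ℂ] UnivSpace Base) :=
    { toFun := img
      map_smul' := fun c X => univ_ext (himg (c • X)) fun v π => by
        show c • img X v π = π.π (c • (X : Op Base)) (v π)
        rw [π.map_smul c _ (isRoe_of_mem X), himg X v π]
        rfl
      map_zero' := univ_ext (himg 0) fun v π => by
        have : π.π (0 : Op Base) = 0 := by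
          have := π.map_smul 0 _ (isRoe_of_mem 0)
          simpa using this
        show (0 : π.carrier) = π.π ((0 : BA) : Op Base) (v π)
        rw [ZeroMemClass.coe_zero, this]
        rfl
      map_add' := fun X Y => univ_ext (himg (X + Y)) fun v π => by
        show img X v π + img Y v π = π.π ((X : Op Base) + (Y : Op Base)) (v π)
        rw [π.map_add _ _ (isRoe_of_mem X) (isRoe_of_mem Y), himg X v π, himg Y v π]
        rfl
      map_mul' := fun X Y => univ_ext (himg (X * Y)) fun v π => by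
        show img X (img Y v) π = π.π ((X : Op Base) * (Y : Op Base)) (v π)
        rw [π.map_mul _ _ (isRoe_of_mem X) (isRoe_of_mem Y), himg X, himg Y]
        rfl }
  have key : ∀ w, φ.toAlgHom w = w.fst • 1 + img w.snd := fun w => by
    rw [← Algebra.algebraMap_eq_smul_one]
    rfl
  refine ⟨φ.toAlgHom, fun w => ?_, fun z X A hA => ?_⟩
  · exact ⟨w.fst, img w.snd, subset_closure ⟨_, isRoe_of_mem _, himg _⟩, key w⟩
  · rw [key, univ_ext hA (himg X)]
    simp

/-- An index class supported at the roots vanishes on the collapsed space. -/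
theorem swindleSpec (hN : NormFiniteSpec) : SwindleSpec := by
  intro S T0 A hS _ he
  have hRoe : ∀ i j, InCtrl baseCtrl (S i j) := fun i j => (isRoe_iff _).1 (hS i j).1
  choose R hR using fun i j => (hRoe i j).1
  let R0 := Finset.univ.sup fun p : Fin 2 × Fin 2 => ⌈R p.1 p.2⌉₊
  have hR0 : ∀ i j, R i j ≤ R0 := fun i j => (Nat.le_ceil _).trans <| by
    exact_mod_cast Finset.le_sup (f := fun p : Fin 2 × Fin 2 => ⌈R p.1 p.2⌉₊)
      (Finset.mem_univ (i, j))
  let m : Matrix (Fin 2) (Fin 2) (RA R0) := Matrix.of fun i j =>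
    ⟨T0 i j, mem_rootCtrl R0 (hR0 i j) (hS i j).2.1
      (fun x y h => hR i j x y (not_le.2 h)) (hRoe i j)⟩
  have htr : ∀ i j, Slot.tr rootSlot rootSlot (T0 i j) = S i j := fun i j =>
    (eq_tr_root (hS i j).2.1).symm
  have hm : (sc qC + toU m) * (sc qC + toU m) =
      (sc qC + toU m : Matrix (Fin 2) (Fin 2) (Unitization ℂ (RA R0))) := by
    let D : Matrix (Fin 2) (Fin 2) (Op Base) := qC.map (algebraMap ℂ (Op Base))
    have hD : D = diagonal ![(0 : RoeSpace Base →L[ℂ] RoeSpace Base), 1] := by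
      ext i j : 1
      fin_cases i <;> fin_cases j <;> simp [D, qC]
    have hDD : D * D = D := by
      conv_rhs => rw [show D = (qC * qC).map (algebraMap ℂ (Op Base)) by rw [qC_idem]]
      exact (Matrix.map_mul (f := algebraMap ℂ (Op Base))).symm
    have hS2 : D * Matrix.of S + Matrix.of S * D + Matrix.of S * Matrix.of S = Matrix.of S := by
      have h2 : (D + Matrix.of S) * (D + Matrix.of S) = D + Matrix.of S := by
        rw [hD]; exact he
      calc _ = (D + Matrix.of S) * (D + Matrix.of S) - D * D := by noncomm_ring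
        _ = _ := by rw [h2, hDD, add_sub_cancel_left]
    refine Matrix.ext fun i j => Unitization.ext ?_ ?_
    · have := congrFun (congrFun qC_idem i) j
      simpa [sc, toU, Matrix.mul_apply] using this
    · have h3 := congrFun (congrFun hS2 i) j
      simp only [Matrix.mul_apply, Matrix.add_apply, Matrix.of_apply, D, Matrix.map_apply,
        Fin.sum_univ_two, ← Algebra.smul_def, ← Algebra.commutes] at h3
      simp only [Fin.sum_univ_two, Matrix.mul_apply, Matrix.add_apply, sc, toU, Matrix.map_apply,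
        Unitization.snd_add, Unitization.snd_mul, Unitization.fst_add, Unitization.fst_inl,
        Unitization.fst_inr, Unitization.snd_inl, Unitization.snd_inr, zero_add, add_zero]
      apply Subtype.ext
      apply tr_root_injective
      simp only [m, Matrix.of_apply, Slot.tr_add, Slot.tr_smul, ← Slot.tr_mul rootSlot rootSlot,
        NonUnitalSubalgebra.coe_add, NonUnitalSubalgebra.coe_smul, NonUnitalSubalgebra.coe_mul,
        htr]
      rw [← h3]
      abel
  obtain ⟨Ψ, hΨ, hΨ'⟩ := exists_image (hN Base base_discrete base_boundedGeometry)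
  obtain ⟨a, b, hab, hba⟩ := eqv_main m hm
    (compat_of_near R0 (near_rootSlot R0) (near_rootSlot R0))
  have h0 : ∀ i j, Ψ (Unitization.inl (qC i j)) =
      diagonal ![(0 : UnivSpace Base →L[ℂ] UnivSpace Base), 1] i j := fun i j => by
    rw [← Unitization.algebraMap_eq_inl ℂ BA, AlgHom.commutes]
    fin_cases i <;> fin_cases j <;> simp [qC]
  have hq : (sc qC).map Ψ = diagonal ![(0 : UnivSpace Base →L[ℂ] UnivSpace Base), 1] :=
    Matrix.ext h0
  have he' : (sc qC + toU (m.map (trL rootSlot rootSlot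
      (compat_of_near R0 (near_rootSlot R0) (near_rootSlot R0))))).map Ψ =
      diagonal ![(0 : UnivSpace Base →L[ℂ] UnivSpace Base), 1] + Matrix.of A := by
    ext i j : 1
    simp only [Matrix.map_apply, Matrix.add_apply, sc, toU]
    rw [hΨ' _ _ (A i j) (by rw [trL_coe]; exact (htr i j).symm ▸ (hS i j).2.2),
      Matrix.of_apply, ← h0, ← Unitization.algebraMap_eq_inl ℂ BA, AlgHom.commutes,
      Algebra.algebraMap_eq_smul_one]
  refine ⟨2, 2, a.map Ψ, b.map Ψ, fun i j => hΨ _, fun i j => hΨ _, ?_, ?_⟩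
  · exact (map_block Ψ hab).trans (by rw [he'])
  · exact (map_block Ψ hba).trans (by rw [hq])

end VP212.Swindle
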