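import Vale.Agent.P212.Swindle.L2
import Vale.Agent.P212.Base.Ops

/-!
P212, swindle: algebras of operators with controlled support and compact entries.
-/

open scoped InnerProductSpace

namespace VP212.Swindle

variable {V : Type}

/-- Operators on `l2(V) ⊗ l2(N)`. -/
abbrev Op (V : Type) : Type := L2 (V × ℕ) →L[ℂ] L2 (V × ℕ)

/-- The inclusion of a fibre. -/
noncomputable def fin (x : V) : L2 ℕ →L[ℂ] L2 (V × ℕ) := push _ (slot_injective x)

/-- The restriction to a fibre. -/
noncomputable def fout (x : V) : L2 (V × ℕ) →L[ℂ] L2 ℕ := pull _ (slot_injective x)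

/-- The entry of an operator between two fibres. -/
noncomputable def entry (x y : V) (T : Op V) : L2 ℕ →L[ℂ] L2 ℕ := (fout x).comp (T.comp (fin y))

theorem entry_apply (x y : V) (T : Op V) (v : L2 ℕ) (k : ℕ) :
    entry x y T v k = T (fin y v) (x, k) := rfl

theorem ext_single {α : Type} [DecidableEq α] {H : Type} [NormedAddCommGroup H] [NormedSpace ℂ H]
    {S T : L2 α →L[ℂ] H}
    (h : ∀ i, S (lp.single (E := fun _ : α => ℂ) 2 i (1 : ℂ)) =
      T (lp.single (E := fun _ : α => ℂ) 2 i (1 : ℂ))) :
    S = T := by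
  ext v
  have hv := lp.hasSum_single ENNReal.ofNat_ne_top v
  have h1 := hv.mapL S
  have h2 := hv.mapL T
  refine h1.unique ?_
  convert h2 using 2 with i
  have : (lp.single 2 i (v i) : L2 α) = (v i) • (lp.single 2 i (1 : ℂ) : L2 α) := by
    rw [← lp.single_smul]; simp
  rw [this, map_smul, map_smul, h i]

theorem fin_single [DecidableEq V] (y : V) (l : ℕ) :
    fin y (lp.single (E := fun _ : ℕ => ℂ) 2 l (1 : ℂ)) = delta y l := by
  classical
  ext ⟨z, k⟩
  by_cases h : z = y
  · subst h
    show push _ (slot_injective z) _ (z, k) = _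
    rw [push_apply (slot_injective z)]
    simp [delta, lp.single_apply, Pi.single_apply]
  · show push _ (slot_injective y) _ (z, k) = _
    rw [push_apply_not (slot_injective y) _ _ fun i hi => h (Prod.ext_iff.1 hi).1.symm]
    simp [delta, lp.single_apply, h]

theorem inner_delta (x : V) (k : ℕ) (w : L2 (V × ℕ)) : ⟪delta x k, w⟫_ℂ = w (x, k) := by
  classical
  have := lp.inner_single_left (𝕜 := ℂ) (G := fun _ : V × ℕ => ℂ) (x, k) (1 : ℂ) w
  rw [delta, this]
  simp

theorem entry_eq_zero_iff (x y : V) (T : Op V) :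
    entry x y T = 0 ↔ ∀ k l, ⟪delta x k, T (delta y l)⟫_ℂ = 0 := by
  classical
  refine ⟨fun h k l => ?_, fun h => ext_single fun l => ?_⟩
  · rw [inner_delta, ← fin_single, ← entry_apply, h]
    rfl
  · ext k
    rw [entry_apply, fin_single, ← inner_delta, h k l]
    rfl

theorem entry_add (x y : V) (S T : Op V) : entry x y (S + T) = entry x y S + entry x y T := by
  simp [entry, ContinuousLinearMap.add_comp, ContinuousLinearMap.comp_add]

theorem entry_smul (x y : V) (c : ℂ) (T : Op V) : entry x y (c • T) = c • entry x y T := by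
  simp [entry, ContinuousLinearMap.smul_comp]

theorem comp_fin {T : Op V} {y : V} (F : Finset V) (h : ∀ z, z ∉ F → entry z y T = 0) :
    T.comp (fin y) = ∑ z ∈ F, (fin z).comp (entry z y T) := by
  ext v ⟨z, k⟩
  simp only [FunLike.coe_sum, Finset.sum_apply, lp.coeFn_sum,
    ContinuousLinearMap.comp_apply]
  have hne : ∀ b, b ≠ z → fin b (entry b y T v) (z, k) = 0 := fun b hb =>
    push_apply_not (slot_injective b) _ _ fun i hi => hb (Prod.ext_iff.1 hi).1
  by_cases hz : z ∈ F
  · rw [Finset.sum_eq_single z (fun b _ hb => hne b hb) (fun h' => absurd hz h')]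
    exact ((push_apply (slot_injective z) _ k).trans (entry_apply z y T v k)).symm
  · rw [Finset.sum_eq_zero fun b hb => hne b fun e => hz (e ▸ hb)]
    exact (entry_apply z y T v k).symm.trans (by rw [h z hz]; rfl)

theorem entry_mul {S T : Op V} {x y : V} (F : Finset V) (h : ∀ z, z ∉ F → entry z y T = 0) :
    entry x y (S * T) = ∑ z ∈ F, (entry x z S).comp (entry z y T) := by
  show (fout x).comp ((S.comp T).comp (fin y)) = _
  rw [ContinuousLinearMap.comp_assoc, comp_fin F h]
  simp [entry, ContinuousLinearMap.comp_finsetSum, ContinuousLinearMap.comp_assoc]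

theorem isCompact_finsetSum {ι : Type} (s : Finset ι) (f : ι → (L2 ℕ →L[ℂ] L2 ℕ))
    (h : ∀ i ∈ s, IsCompactOperator (f i)) :
    IsCompactOperator (∑ i ∈ s, f i : L2 ℕ →L[ℂ] L2 ℕ) := by
  classical
  induction s using Finset.induction with
  | empty => simpa using isCompactOperator_zero
  | insert a s ha ih =>
    rw [Finset.sum_insert ha, FunLike.coe_add]
    exact (h a (Finset.mem_insert_self _ _)).add (ih fun i hi => h i (Finset.mem_insert_of_mem hi))

/-- A control structure: monotone relations with finite columns, closed under composition. -/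
structure Ctrl (V : Type) where
  rel : ℝ → V → V → Prop
  mono : ∀ {R R' x y}, R ≤ R' → rel R x y → rel R' x y
  fin : ∀ R y, {x | rel R x y}.Finite
  comp : ∀ R R', ∃ R'', ∀ x z y, rel R x z → rel R' z y → rel R'' x y

variable (C : Ctrl V)

/-- Controlled support and compact entries. -/
def InCtrl (T : Op V) : Prop :=
  (∃ R, ∀ x y, ¬ C.rel R x y → entry x y T = 0) ∧ ∀ x y, IsCompactOperator (entry x y T)

/-- The algebra of a control structure. -/
noncomputable def ctrlAlg : NonUnitalSubalgebra ℂ (Op V) where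
  carrier := {T | InCtrl C T}
  zero_mem' := ⟨⟨0, fun x y _ => by simp [entry]⟩,
    fun x y => by simpa [entry] using isCompactOperator_zero⟩
  add_mem' := by
    rintro S T ⟨⟨R, hR⟩, hS⟩ ⟨⟨R', hR'⟩, hT⟩
    refine ⟨⟨max R R', fun x y h => ?_⟩, fun x y => ?_⟩
    · rw [entry_add, hR x y fun h' => h (C.mono (le_max_left _ _) h'),
        hR' x y fun h' => h (C.mono (le_max_right _ _) h'), add_zero]
    · rw [entry_add, FunLike.coe_add]
      exact (hS x y).add (hT x y)
  smul_mem' := by
    rintro c T ⟨⟨R, hR⟩, hT⟩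
    refine ⟨⟨R, fun x y h => by rw [entry_smul, hR x y h, smul_zero]⟩, fun x y => ?_⟩
    rw [entry_smul, FunLike.coe_smul]
    exact (hT x y).smul c
  mul_mem' := by
    rintro S T ⟨⟨R, hR⟩, hS⟩ ⟨⟨R', hR'⟩, hT⟩
    obtain ⟨R'', hR''⟩ := C.comp R R'
    have hF : ∀ y z, z ∉ (C.fin R' y).toFinset → entry z y T = 0 := fun y z hz =>
      hR' z y fun h => hz ((Set.Finite.mem_toFinset _).2 h)
    refine ⟨⟨R'', fun x y h => ?_⟩, fun x y => ?_⟩
    · rw [entry_mul _ (hF y)]
      refine Finset.sum_eq_zero fun z hz => ?_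
      have hz' : C.rel R' z y := (C.fin R' y).mem_toFinset.1 hz
      rw [hR x z fun h' => h (hR'' x z y h' hz')]
      simp
    · rw [entry_mul _ (hF y)]
      exact isCompact_finsetSum _ _ fun z _ =>
        IsCompactOperator.clm_comp (f := entry z y T) (hT z y) (entry x z S)

theorem mem_ctrlAlg {T : Op V} : T ∈ ctrlAlg C ↔ InCtrl C T := Iff.rfl

end VP212.Swindle
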