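import Mathlib

/-!
P212, swindle: maps of `l2` spaces induced by injections, and block diagonal amplifications.
-/

namespace VP212.Swindle

/-- `l2(α)`. -/
abbrev L2 (α : Type) : Type := lp (fun _ : α => ℂ) 2

variable {α β γ K : Type}

theorem two_toReal : (2 : ENNReal).toReal = ((2 : ℕ) : ℝ) := by norm_num

theorem sq_summable (v : L2 α) : Summable fun i => ‖v i‖ ^ 2 := by
  have h := (lp.hasSum_norm (by norm_num) v).summable
  simpa [two_toReal, Real.rpow_natCast] using h

theorem sq_norm (v : L2 α) : ‖v‖ ^ 2 = ∑' i, ‖v i‖ ^ 2 := by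
  have h := lp.norm_rpow_eq_tsum (p := 2) (by norm_num) v
  simpa [two_toReal, Real.rpow_natCast] using h

theorem memL2 {f : α → ℂ} (h : Summable fun i => ‖f i‖ ^ 2) : Memℓp (E := fun _ : α => ℂ) f 2 := by
  refine memℓp_gen ?_
  simpa [two_toReal, Real.rpow_natCast] using h

theorem norm_le_of_sq {v : L2 α} {C : ℝ} (hC : 0 ≤ C) (h : ∑' i, ‖v i‖ ^ 2 ≤ C ^ 2) : ‖v‖ ≤ C := by
  rw [← sq_norm] at h
  exact (sq_le_sq₀ (norm_nonneg v) hC).1 h

theorem extend_sq (φ : α → β) (v : α → ℂ) :
    (fun j => ‖Function.extend φ v 0 j‖ ^ 2) = Function.extend φ (fun i => ‖v i‖ ^ 2) 0 := by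
  classical
  funext j
  simp only [Function.extend_def]
  split <;> simp

theorem extend_supp (φ : α → β) (f : α → ℝ) :
    Function.support (Function.extend φ f 0) ⊆ Set.range φ := by
  intro j hj
  by_contra h
  exact hj (Function.extend_apply' _ _ _ fun ⟨a, ha⟩ => h ⟨a, ha⟩)

theorem push_summable {φ : α → β} (hφ : Function.Injective φ) (v : L2 α) :
    Summable fun j => ‖Function.extend φ (fun i => v i) 0 j‖ ^ 2 := by
  rw [extend_sq]
  refine (hφ.summable_iff fun j hj => Function.extend_apply' _ (0 : β → ℝ) j fun h => hj h).1 ?_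
  simpa [Function.comp_def, hφ.extend_apply] using sq_summable v

/-- The isometry induced by an injection. -/
noncomputable def push (φ : α → β) (hφ : Function.Injective φ) : L2 α →L[ℂ] L2 β :=
  LinearMap.mkContinuous
    { toFun := fun v => ⟨Function.extend φ (fun i => v i) 0, memL2 (push_summable hφ v)⟩
      map_add' := fun v w => by
        ext j
        show Function.extend φ (fun i => v i + w i) 0 j =
          Function.extend φ (fun i => v i) 0 j + Function.extend φ (fun i => w i) 0 j
        by_cases h : ∃ a, φ a = j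
        · obtain ⟨a, rfl⟩ := h
          simp [hφ.extend_apply]
        · simp [Function.extend_apply' _ _ _ h]
      map_smul' := fun c v => by
        ext j
        by_cases h : ∃ a, φ a = j
        · obtain ⟨a, rfl⟩ := h
          simp [hφ.extend_apply]
        · simp [Function.extend_apply' _ _ _ h] } 1 fun v => by
    refine norm_le_of_sq (by positivity) ?_
    show ∑' j, ‖Function.extend φ (fun i => v i) 0 j‖ ^ 2 ≤ (1 * ‖v‖) ^ 2
    rw [extend_sq, ← hφ.tsum_eq (extend_supp _ _), one_mul, sq_norm]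
    exact le_of_eq (tsum_congr fun i => hφ.extend_apply _ _ _)

theorem push_apply {φ : α → β} (hφ : Function.Injective φ) (v : L2 α) (i : α) :
    push φ hφ v (φ i) = v i := hφ.extend_apply _ _ _

theorem push_apply_not {φ : α → β} (hφ : Function.Injective φ) (v : L2 α) (j : β)
    (h : ∀ i, φ i ≠ j) : push φ hφ v j = 0 :=
  Function.extend_apply' _ _ _ fun ⟨a, ha⟩ => h a ha

/-- The coisometry induced by an injection. -/
noncomputable def pull (φ : α → β) (hφ : Function.Injective φ) : L2 β →L[ℂ] L2 α :=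
  LinearMap.mkContinuous
    { toFun := fun v => ⟨fun i => v (φ i), memL2 ((sq_summable v).comp_injective hφ)⟩
      map_add' := fun v w => rfl
      map_smul' := fun c v => rfl } 1 fun v => by
    refine norm_le_of_sq (by positivity) ?_
    show ∑' i, ‖v (φ i)‖ ^ 2 ≤ (1 * ‖v‖) ^ 2
    rw [one_mul, sq_norm]
    exact tsum_comp_le_tsum_of_inj (sq_summable v) (fun j => by positivity) hφ

theorem pull_apply {φ : α → β} (hφ : Function.Injective φ) (v : L2 β) (i : α) :
    pull φ hφ v i = v (φ i) := rfl

theorem pull_push {φ : α → β} (hφ : Function.Injective φ) :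
    (pull φ hφ).comp (push φ hφ) = ContinuousLinearMap.id ℂ (L2 α) := by
  ext v i
  exact push_apply hφ v i

theorem pull_push_disjoint {φ : α → β} {ψ : γ → β} (hφ : Function.Injective φ)
    (hψ : Function.Injective ψ) (h : ∀ i k, φ i ≠ ψ k) :
    (pull φ hφ).comp (push ψ hψ) = 0 := by
  ext v i
  exact push_apply_not hψ v (φ i) fun k => (h i k).symm

theorem push_comp {φ : α → β} {ψ : γ → α} (hφ : Function.Injective φ) (hψ : Function.Injective ψ)
    (h : Function.Injective fun k => φ (ψ k)) :
    (push φ hφ).comp (push ψ hψ) = push (fun k => φ (ψ k)) h := by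
  ext v j
  by_cases hj : ∃ a, φ a = j
  · obtain ⟨a, rfl⟩ := hj
    show push φ hφ (push ψ hψ v) (φ a) = _
    rw [push_apply]
    by_cases ha : ∃ k, ψ k = a
    · obtain ⟨k, rfl⟩ := ha
      rw [push_apply, push_apply h]
    · rw [push_apply_not hψ v a fun k hk => ha ⟨k, hk⟩,
        push_apply_not h v (φ a) fun k hk => ha ⟨k, hφ hk⟩]
  · show push φ hφ (push ψ hψ v) j = _
    rw [push_apply_not hφ _ j fun a ha => hj ⟨a, ha⟩,
      push_apply_not h v j fun k hk => hj ⟨ψ k, hk⟩]

theorem slot_injective (k : K) : Function.Injective fun i : α => (k, i) :=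
  fun _ _ h => (Prod.ext_iff.1 h).2

theorem fibre_hasSum (v : L2 (K × α)) :
    HasSum (fun k => ‖pull _ (slot_injective k) v‖ ^ 2) (‖v‖ ^ 2) := by
  rw [sq_norm v]
  refine HasSum.prod_fiberwise (f := fun p : K × α => ‖v p‖ ^ 2) (sq_summable v).hasSum fun k => ?_
  rw [sq_norm (pull _ (slot_injective k) v)]
  exact (sq_summable (pull _ (slot_injective k) v)).hasSum

theorem diag_summable (X : L2 α →L[ℂ] L2 β) (v : L2 (K × α)) :
    Summable (fun p : K × β => ‖X (pull _ (slot_injective p.1) v) p.2‖ ^ 2) ∧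
      ∑' p : K × β, ‖X (pull _ (slot_injective p.1) v) p.2‖ ^ 2 ≤ (‖X‖ * ‖v‖) ^ 2 := by
  have hf := fibre_hasSum v
  generalize hw : (fun k : K => pull _ (slot_injective k) v) = w at *
  have hwk : ∀ k, pull _ (slot_injective k) v = w k := fun k => congrFun hw k
  simp only [hwk] at hf ⊢
  have hbound : ∀ k, ∑' j, ‖X (w k) j‖ ^ 2 ≤ ‖X‖ ^ 2 * ‖w k‖ ^ 2 := fun k => by
    rw [← sq_norm, ← mul_pow]
    exact pow_le_pow_left₀ (norm_nonneg _) (X.le_opNorm _) 2
  have hk : Summable fun k => ∑' j, ‖X (w k) j‖ ^ 2 :=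
    Summable.of_nonneg_of_le (fun k => tsum_nonneg fun j => sq_nonneg _) hbound
      (hf.summable.mul_left (‖X‖ ^ 2))
  have hs : Summable (fun p : K × β => ‖X (w p.1) p.2‖ ^ 2) :=
    (summable_prod_of_nonneg fun p => sq_nonneg _).2 ⟨fun k => sq_summable (X (w k)), hk⟩
  refine ⟨hs, ?_⟩
  rw [hs.tsum_prod' fun k => sq_summable (X (w k)), mul_pow, ← hf.tsum_eq, ← tsum_mul_left]
  exact hk.tsum_le_tsum hbound (hf.summable.mul_left _)

/-- The amplification of an operator over `K`. -/
noncomputable def diag (K : Type) (X : L2 α →L[ℂ] L2 β) : L2 (K × α) →L[ℂ] L2 (K × β) :=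
  LinearMap.mkContinuous
    { toFun := fun v => ⟨fun p => X (pull _ (slot_injective p.1) v) p.2,
        memL2 (diag_summable X v).1⟩
      map_add' := fun v w => by
        ext p
        show X (pull _ (slot_injective p.1) (v + w)) p.2 = _
        rw [map_add, map_add]
        rfl
      map_smul' := fun c v => by
        ext p
        show X (pull _ (slot_injective p.1) (c • v)) p.2 = _
        rw [map_smul, map_smul]
        rfl } ‖X‖ fun v => norm_le_of_sq (by positivity) (diag_summable X v).2

theorem diag_apply (X : L2 α →L[ℂ] L2 β) (v : L2 (K × α)) (p : K × β) :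
    diag K X v p = X (pull _ (slot_injective p.1) v) p.2 := rfl

theorem diag_comp (X : L2 β →L[ℂ] L2 γ) (Y : L2 α →L[ℂ] L2 β) :
    (diag K X).comp (diag K Y) = diag K (X.comp Y) := by
  ext v p
  show X (pull _ (slot_injective p.1) (diag K Y v)) p.2 = X (Y _) p.2
  congr 2

theorem diag_add (X Y : L2 α →L[ℂ] L2 β) : diag K (X + Y) = diag K X + diag K Y := by
  ext v p
  rfl

theorem diag_smul (c : ℂ) (X : L2 α →L[ℂ] L2 β) : diag K (c • X) = c • diag K X := by
  ext v p
  rfl

theorem diag_zero : diag K (0 : L2 α →L[ℂ] L2 β) = 0 := by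
  ext v p
  rfl

end VP212.Swindle
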