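import Vale.Agent.P212.Swindle.Space

/-!
P212, swindle: slots, and the transport of operators on the roots along slots.
-/

namespace VP212.Swindle

/-- A placement of `K` copies of the roots: a vertex and a relabelling of each fibre. -/
structure Slot (K : Type) where
  pos : K × Root → Base
  lab : K × Root → ℕ → ℕ
  inj : Function.Injective fun i : K × (Root × ℕ) => (pos (i.1, i.2.1), lab (i.1, i.2.1) i.2.2)
  fin : ∀ x, {p | pos p = x}.Finite

namespace Slot

variable {K : Type} (φ ψ χ : Slot K)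

/-- The injection of a slot. -/
def map (i : K × (Root × ℕ)) : Base × ℕ := (φ.pos (i.1, i.2.1), φ.lab (i.1, i.2.1) i.2.2)

theorem map_inj : Function.Injective φ.map := φ.inj

theorem lab_inj (p : K × Root) : Function.Injective (φ.lab p) := fun j j' h => by
  have := φ.inj (a₁ := (p.1, (p.2, j))) (a₂ := (p.1, (p.2, j')))
    (show (φ.pos p, φ.lab p j) = (φ.pos p, φ.lab p j') by rw [h])
  exact (Prod.ext_iff.1 (Prod.ext_iff.1 this).2).2

/-- The transport of an operator on the roots between two slots. -/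
noncomputable def tr (X : Op Root) : Op Base :=
  (push φ.map φ.map_inj).comp ((diag K X).comp (pull ψ.map ψ.map_inj))

theorem tr_add (X Y : Op Root) : tr φ ψ (X + Y) = tr φ ψ X + tr φ ψ Y := by
  simp [tr, diag_add, ContinuousLinearMap.add_comp, ContinuousLinearMap.comp_add]

theorem tr_smul (c : ℂ) (X : Op Root) : tr φ ψ (c • X) = c • tr φ ψ X := by
  simp [tr, diag_smul]

theorem tr_zero : tr φ ψ 0 = 0 := by simp [tr, diag_zero]

theorem tr_mul (X Y : Op Root) : tr φ ψ X * tr ψ χ Y = tr φ χ (X * Y) := by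
  ext1 v
  show push _ φ.map_inj (diag K X (pull _ ψ.map_inj (push _ ψ.map_inj
    (diag K Y (pull _ χ.map_inj v))))) = push _ φ.map_inj (diag K (X.comp Y) (pull _ χ.map_inj v))
  rw [← ContinuousLinearMap.comp_apply (pull _ ψ.map_inj), pull_push, ← diag_comp]
  rfl

/-- The two slots have disjoint images. -/
def Disj {L : Type} (φ : Slot K) (ψ : Slot L) : Prop := ∀ i i', φ.map i ≠ ψ.map i'

theorem tr_mul_disjoint {L : Type} (φ ψ : Slot K) (χ ω : Slot L) (h : Disj ψ χ) (X Y : Op Root) :
    tr φ ψ X * tr χ ω Y = 0 := by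
  ext1 v
  show push _ φ.map_inj (diag K X (pull _ ψ.map_inj (push _ χ.map_inj
    (diag L Y (pull _ ω.map_inj v))))) = 0
  rw [← ContinuousLinearMap.comp_apply (pull _ ψ.map_inj),
    pull_push_disjoint ψ.map_inj χ.map_inj h]
  simp

/-- The fibre of a root in a copy. -/
def cell (p : K × Root) (j : ℕ) : K × (Root × ℕ) := (p.1, (p.2, j))

theorem cell_inj (p : K × Root) : Function.Injective (cell p) :=
  fun _ _ h => (Prod.ext_iff.1 (Prod.ext_iff.1 h).2).2

theorem pull_fin (y : Base) : (pull ψ.map ψ.map_inj).comp (VP212.Swindle.fin y) =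
    ∑ p ∈ (ψ.fin y).toFinset,
      (push _ (cell_inj p)).comp (pull _ (ψ.lab_inj p)) := by
  classical
  ext v ⟨k, r, j⟩
  simp only [FunLike.coe_sum, Finset.sum_apply, lp.coeFn_sum, ContinuousLinearMap.comp_apply]
  have hne : ∀ p, p ≠ (k, r) → push _ (cell_inj p) (pull _ (ψ.lab_inj p) v) (k, (r, j)) = 0 :=
    fun p hp => push_apply_not (cell_inj p) _ _ fun i hi => hp (by
      simp only [cell, Prod.mk.injEq] at hi
      exact Prod.ext hi.1 hi.2.1)
  by_cases h : ψ.pos (k, r) = y
  · rw [Finset.sum_eq_single (k, r) (fun b _ hb => hne b hb)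
      (fun h' => absurd ((ψ.fin y).mem_toFinset.2 h) h')]
    refine Eq.trans ?_ (push_apply (cell_inj (k, r)) _ j).symm
    show VP212.Swindle.fin y v (ψ.pos (k, r), ψ.lab (k, r) j) = _
    rw [h]
    exact push_apply (slot_injective y) _ _
  · rw [Finset.sum_eq_zero fun b hb => hne b fun e => h (by subst e; exact (ψ.fin y).mem_toFinset.1 hb)]
    exact push_apply_not (slot_injective y) _ _ fun i hi => h (Prod.ext_iff.1 hi).1.symm

theorem fout_push (x : Base) : (fout x).comp (push φ.map φ.map_inj) =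
    ∑ p ∈ (φ.fin x).toFinset,
      (push _ (φ.lab_inj p)).comp (pull _ (cell_inj p)) := by
  classical
  ext v i
  simp only [FunLike.coe_sum, Finset.sum_apply, lp.coeFn_sum, ContinuousLinearMap.comp_apply]
  show push φ.map φ.map_inj v (x, i) = _
  by_cases h : ∃ p j, φ.pos p = x ∧ φ.lab p j = i
  · obtain ⟨p, j, hp, hj⟩ := h
    have e : φ.map (p.1, (p.2, j)) = (x, i) := Prod.ext hp hj
    rw [Finset.sum_eq_single p ?_ (fun h' => absurd ((φ.fin x).mem_toFinset.2 hp) h'), ← e,
      push_apply, ← hj, push_apply]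
    · rfl
    · intro b hb hbp
      refine push_apply_not (φ.lab_inj b) _ _ fun j' hj' => hbp ?_
      have hb' : φ.pos b = x := (φ.fin x).mem_toFinset.1 hb
      have := φ.map_inj (a₁ := (b.1, (b.2, j'))) (a₂ := (p.1, (p.2, j)))
        (Prod.ext (hb'.trans hp.symm) (hj'.trans hj.symm))
      simp only [Prod.mk.injEq] at this
      exact Prod.ext this.1 this.2.1
  · rw [push_apply_not φ.map_inj v (x, i) fun a ha =>
      h ⟨(a.1, a.2.1), a.2.2, (Prod.ext_iff.1 ha).1, (Prod.ext_iff.1 ha).2⟩]
    refine (Finset.sum_eq_zero fun b hb => push_apply_not (φ.lab_inj b) _ _ fun j hj => h ?_).symm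
    exact ⟨b, j, (φ.fin x).mem_toFinset.1 hb, hj⟩

theorem pull_diag_push [DecidableEq K] (X : Op Root) (p p' : K × Root) :
    (pull _ (cell_inj p)).comp ((diag K X).comp (push _ (cell_inj p'))) =
      if p.1 = p'.1 then entry p.2 p'.2 X else 0 := by
  obtain ⟨k, r⟩ := p
  obtain ⟨k', r'⟩ := p'
  ext v j
  show X (pull _ (slot_injective k) (push _ (cell_inj (k', r')) v)) (r, j) = _
  by_cases h : k = k'
  · subst h
    simp only [if_true]
    rw [entry_apply]
    suffices hv : pull _ (slot_injective k) (push _ (cell_inj (k, r')) v) =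
        VP212.Swindle.fin r' v by rw [hv]
    ext ⟨z, i⟩
    show push _ (cell_inj (k, r')) v (k, (z, i)) = _
    by_cases hz : z = r'
    · subst hz
      exact (push_apply (cell_inj (k, z)) _ i).trans (push_apply (slot_injective z) _ i).symm
    · rw [push_apply_not (cell_inj (k, r')) _ _ fun i' hi => hz (by
        simp only [cell, Prod.mk.injEq] at hi; exact hi.2.1.symm)]
      exact (push_apply_not (slot_injective r') _ _ fun i' hi => hz (Prod.ext_iff.1 hi).1.symm).symm
  · simp only [if_neg h]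
    have : pull _ (slot_injective k) (push _ (cell_inj (k', r')) v) = 0 := by
      ext ⟨z, i⟩
      exact push_apply_not (cell_inj (k', r')) _ _ fun i' hi => h (Prod.ext_iff.1 hi).1.symm
    rw [this, map_zero]
    rfl

theorem entry_tr [DecidableEq K] (X : Op Root) (x y : Base) :
    entry x y (tr φ ψ X) = ∑ p ∈ (φ.fin x).toFinset, ∑ p' ∈ (ψ.fin y).toFinset,
      (push _ (φ.lab_inj p)).comp ((if p.1 = p'.1 then entry p.2 p'.2 X else 0).comp
        (pull _ (ψ.lab_inj p'))) := by
  have : entry x y (tr φ ψ X) = ((fout x).comp (push φ.map φ.map_inj)).comp ((diag K X).comp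
      ((pull ψ.map ψ.map_inj).comp (VP212.Swindle.fin y))) := by
    simp [entry, tr, ContinuousLinearMap.comp_assoc]
  rw [this, fout_push, pull_fin]
  simp only [← pull_diag_push]
  rw [ContinuousLinearMap.finsetSum_comp]
  refine Finset.sum_congr rfl fun p _ => ?_
  simp only [ContinuousLinearMap.comp_finsetSum, ContinuousLinearMap.comp_assoc]

/-- Related roots land at bounded distance. -/
def Compat (R0 : ℕ) (φ ψ : Slot K) : Prop :=
  ∀ R, ∃ S : ℝ, ∀ k r r', (rootCtrl R0).rel R r r' → dist (φ.pos (k, r)) (ψ.pos (k, r')) ≤ S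

theorem tr_mem {R0 : ℕ} (h : Compat R0 φ ψ) {X : Op Root} (hX : InCtrl (rootCtrl R0) X) :
    InCtrl baseCtrl (tr φ ψ X) := by
  classical
  obtain ⟨⟨R, hR⟩, hc⟩ := hX
  obtain ⟨S, hS⟩ := h R
  refine ⟨⟨S, fun x y hxy => ?_⟩, fun x y => ?_⟩
  · rw [entry_tr]
    refine Finset.sum_eq_zero fun p hp => Finset.sum_eq_zero fun p' hp' => ?_
    have hp1 : φ.pos p = x := (φ.fin x).mem_toFinset.1 hp
    have hp2 : ψ.pos p' = y := (ψ.fin y).mem_toFinset.1 hp'
    by_cases hk : p.1 = p'.1
    · have hn : ¬ (rootCtrl R0).rel R p.2 p'.2 := fun h' => hxy <| by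
        show dist x y ≤ S
        have := hS p.1 p.2 p'.2 h'
        rw [← hp1, ← hp2]
        convert this using 3
        exact Prod.ext hk.symm rfl
      simp [hR _ _ hn]
    · simp [if_neg hk]
  · rw [entry_tr]
    refine isCompact_finsetSum _ _ fun p _ => isCompact_finsetSum _ _ fun p' _ => ?_
    by_cases hk : p.1 = p'.1
    · rw [if_pos hk]
      exact ((hc p.2 p'.2).comp_clm _).clm_comp (push _ (φ.lab_inj p))
    · rw [if_neg hk]
      simpa using isCompactOperator_zero

end Slot

end VP212.Swindle
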