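import Vale.Agent.P212.Swindle.Slot

/-!
P212, swindle: the concrete slots. The roots of the finitely many small components are moved to
the ray of the zeroth component, those of the large ones up their own rays.
-/

open scoped InnerProductSpace

namespace VP212.Swindle

/-- Raising the level. -/
def shiftUp (c : ℕ) : baseGraph →g baseGraph where
  toFun x := ⟨x.n, x.z, x.l + c⟩
  map_rel' {x y} h := by
    obtain ⟨hne, h⟩ := (SimpleGraph.fromRel_adj _ _ _).1 h
    have key : ∀ {u v : Base}, baseRel u v →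
        baseRel ⟨u.n, u.z, u.l + c⟩ ⟨v.n, v.z, v.l + c⟩ := by
      rintro u v (rfl | rfl | rfl)
      · exact Or.inl rfl
      · exact Or.inr (Or.inl rfl)
      · exact Or.inr (Or.inr (by simp [Nat.add_right_comm]))
    refine (SimpleGraph.fromRel_adj _ _ _).2 ⟨?_, h.imp key key⟩
    obtain ⟨n, z, l⟩ := x
    obtain ⟨n', z', l'⟩ := y
    simpa using hne

theorem dist_shift {n : ℕ} (z z' : Grid n) (c : ℕ) :
    dist (⟨n, z, c⟩ : Base) ⟨n, z', c⟩ ≤ dist (⟨n, z, 0⟩ : Base) ⟨n, z', 0⟩ := by
  rw [baseDist_self_comp (x := (⟨n, z, c⟩ : Base)) (y := ⟨n, z', c⟩) rfl,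
    baseDist_self_comp (x := (⟨n, z, 0⟩ : Base)) (y := ⟨n, z', 0⟩) rfl]
  obtain ⟨p, hp⟩ := (base_reachable (x := (⟨n, z, 0⟩ : Base)) (y := ⟨n, z', 0⟩)
    rfl).exists_walk_length_eq_dist
  have := baseGraph.dist_le (p.map (shiftUp c))
  rw [SimpleGraph.Walk.length_map, hp] at this
  simp only [shiftUp, RelHom.coeFn_mk, Nat.zero_add] at this
  exact_mod_cast this

theorem dist_lift {n : ℕ} (z : Grid n) (l c : ℕ) :
    dist (⟨n, z, l + c⟩ : Base) ⟨n, z, l⟩ ≤ c := by
  induction c with
  | zero => simp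
  | succ c ih =>
    refine (dist_triangle _ (⟨n, z, l + c⟩ : Base) _).trans ?_
    have : dist (⟨n, z, l + (c + 1)⟩ : Base) ⟨n, z, l + c⟩ ≤ 1 := by
      rw [baseDist_self_comp (x := (⟨n, z, l + (c + 1)⟩ : Base)) (y := ⟨n, z, l + c⟩) rfl]
      have hadj : baseGraph.Adj ⟨n, z, l + c⟩ (⟨n, z, l + (c + 1)⟩ : Base) :=
        (SimpleGraph.fromRel_adj _ _ _).2 ⟨by simp, Or.inl (Or.inr (Or.inr rfl))⟩
      exact_mod_cast (SimpleGraph.dist_eq_one_iff_adj.2 hadj.symm).le
    push_cast
    linarith

/-- A numbering of the roots. -/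
noncomputable def code : Root → ℕ := (Countable.exists_injective_nat Root).choose

theorem code_injective : Function.Injective code :=
  (Countable.exists_injective_nat Root).choose_spec

variable (R0 : ℕ)

/-- The position of a root on a level. -/
def levPos (l : ℕ) (r : Root) : Base := if r.1 ≤ R0 then ⟨0, 0, l⟩ else ⟨r.1, r.2, l⟩

/-- The relabelling of the fibre of a root. -/
noncomputable def levLab (r : Root) (j : ℕ) : ℕ :=
  if r.1 ≤ R0 then Nat.pair (code r) j else j

theorem levPos_l (l : ℕ) (r : Root) : (levPos R0 l r).l = l := by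
  unfold levPos; split <;> rfl

theorem lev_injective {l l' : ℕ} {r r' : Root} {j j' : ℕ}
    (h : (levPos R0 l r, levLab R0 r j) = (levPos R0 l' r', levLab R0 r' j')) :
    l = l' ∧ r = r' ∧ j = j' := by
  obtain ⟨h1, h2⟩ := Prod.ext_iff.1 h
  have hl : l = l' := by simpa [levPos_l] using congrArg Base.l h1
  refine ⟨hl, ?_⟩
  simp only at h1 h2
  unfold levPos at h1
  unfold levLab at h2
  by_cases hr : r.1 ≤ R0 <;> by_cases hr' : r'.1 ≤ R0
  · simp only [hr, hr', if_true] at h2
    obtain ⟨a, b⟩ := Nat.pair_eq_pair.1 h2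
    exact ⟨code_injective a, b⟩
  · simp only [hr, hr', if_true, if_false] at h1
    exact absurd ((congrArg Base.n h1).symm.trans_le (Nat.zero_le R0)) hr'
  · simp only [hr, hr', if_true, if_false] at h1
    exact absurd ((congrArg Base.n h1).trans_le (Nat.zero_le R0)) hr
  · simp only [hr, hr', if_false] at h1 h2
    obtain ⟨n, z⟩ := r
    obtain ⟨n', z'⟩ := r'
    cases h1
    exact ⟨rfl, h2⟩

theorem levPos_fin (x : Base) (l : ℕ) : {r | levPos R0 l r = x}.Finite := by
  have hn : ({n | n ≤ R0 ∨ n = x.n} : Set ℕ).Finite :=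
    (Set.finite_le_nat R0).union (Set.finite_singleton x.n)
  refine (hn.biUnion fun n _ => Set.finite_range (Sigma.mk n : Grid n → Root)).subset ?_
  rintro r (h : levPos R0 l r = x)
  refine Set.mem_iUnion₂.2 ⟨r.1, ?_, r.2, rfl⟩
  by_cases hr : r.1 ≤ R0
  · exact Or.inl hr
  · rw [levPos, if_neg hr] at h
    exact Or.inr (congrArg Base.n h)

/-- All the copies from level `c` on. -/
noncomputable def lev (c : ℕ) : Slot ℕ where
  pos p := levPos R0 (p.1 + c) p.2
  lab p := levLab R0 p.2
  inj a b h := by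
    obtain ⟨h1, h2, h3⟩ := lev_injective R0 h
    exact Prod.ext (Nat.add_right_cancel h1) (Prod.ext h2 h3)
  fin x := by
    refine ((Set.finite_singleton (x.l - c)).prod (levPos_fin R0 x x.l)).subset ?_
    rintro ⟨k, r⟩ (h : levPos R0 (k + c) r = x)
    have hl : k + c = x.l := by rw [← h, levPos_l]
    exact ⟨by simp only [Set.mem_singleton_iff]; omega, hl ▸ h⟩

/-- The copy on level zero. -/
noncomputable def levU : Slot Unit where
  pos p := levPos R0 0 p.2
  lab p := levLab R0 p.2
  inj a b h := by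
    obtain ⟨-, h2, h3⟩ := lev_injective R0 h
    exact Prod.ext rfl (Prod.ext h2 h3)
  fin x := (Set.finite_univ.prod (levPos_fin R0 x 0)).subset fun p h => ⟨Set.mem_univ _, h⟩

theorem rootBase_injective : Function.Injective rootBase := by
  rintro ⟨n, z⟩ ⟨n', z'⟩ h
  cases h
  rfl

/-- The roots themselves. -/
def rootSlot : Slot Unit where
  pos p := rootBase p.2
  lab _ j := j
  inj a b h := Prod.ext rfl (Prod.ext (rootBase_injective (Prod.ext_iff.1 h).1) (Prod.ext_iff.1 h).2)
  fin x := ((Set.finite_univ (α := Unit)).prod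
      (Set.Subsingleton.finite (s := {r | rootBase r = x})
        fun _ h _ h' => rootBase_injective (h.trans h'.symm))).subset
    fun p h => ⟨Set.mem_univ _, h⟩

/-- The slot stays at bounded distance from the levels `lv`. -/
def Near {K : Type} (lv : K → ℕ) (φ : Slot K) : Prop :=
  ∃ D : ℝ, ∀ k r, dist (φ.pos (k, r)) (levPos R0 (lv k) r) ≤ D

theorem dist_levPos_le {R : ℝ} {r r' : Root} (h : (rootCtrl R0).rel R r r') (l : ℕ) :
    dist (levPos R0 l r) (levPos R0 l r') ≤ max R 0 := by
  by_cases hr : r.1 ≤ R0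
  · have hr' : r'.1 ≤ R0 := h.elim (fun h => h.2) fun h => h.1 ▸ hr
    simp [levPos, hr, hr']
  · obtain ⟨h1, h2⟩ := h.resolve_left fun h => hr h.1
    have hr' : ¬ r'.1 ≤ R0 := h1 ▸ hr
    rw [levPos, levPos, if_neg hr, if_neg hr']
    obtain ⟨n, z⟩ := r
    obtain ⟨n', z'⟩ := r'
    obtain rfl : n = n' := h1
    exact (dist_shift z z' l).trans (h2.trans (le_max_left _ _))

theorem compat_of_near {K : Type} {lv : K → ℕ} {φ ψ : Slot K} (hφ : Near R0 lv φ)
    (hψ : Near R0 lv ψ) : Slot.Compat R0 φ ψ := by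
  obtain ⟨D, hD⟩ := hφ
  obtain ⟨D', hD'⟩ := hψ
  refine fun R => ⟨D + max R 0 + D', fun k r r' h => ?_⟩
  refine (dist_triangle4 _ (levPos R0 (lv k) r) (levPos R0 (lv k) r') _).trans ?_
  have := hD' k r'
  rw [dist_comm] at this
  exact add_le_add (add_le_add (hD k r) (dist_levPos_le R0 h _)) this

theorem near_lev (c : ℕ) : Near R0 id (lev R0 c) := by
  refine ⟨c, fun k r => ?_⟩
  show dist (levPos R0 (k + c) r) (levPos R0 k r) ≤ c
  by_cases hr : r.1 ≤ R0
  · rw [levPos, levPos, if_pos hr, if_pos hr]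
    exact dist_lift _ _ _
  · rw [levPos, levPos, if_neg hr, if_neg hr]
    exact dist_lift _ _ _

theorem near_levU : Near R0 (fun _ => 0) (levU R0) :=
  ⟨0, fun _ r => (dist_self (levPos R0 0 r)).le⟩

theorem near_rootSlot : Near R0 (fun _ => 0) rootSlot := by
  have hfin : {r : Root | r.1 ≤ R0}.Finite := by
    refine ((Set.finite_le_nat R0).biUnion fun n _ =>
      Set.finite_range (Sigma.mk n : Grid n → Root)).subset fun r hr => ?_
    exact Set.mem_iUnion₂.2 ⟨r.1, hr, r.2, rfl⟩
  obtain ⟨D, hD⟩ := (hfin.image fun r => dist (rootBase r) (⟨0, 0, 0⟩ : Base)).bddAbove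
  refine ⟨max D 0, fun _ r => ?_⟩
  show dist (rootBase r) (levPos R0 0 r) ≤ max D 0
  by_cases hr : r.1 ≤ R0
  · rw [levPos, if_pos hr]
    exact (hD ⟨r, hr, rfl⟩).trans (le_max_left _ _)
  · rw [levPos, if_neg hr]
    exact (dist_self (rootBase r)).le.trans (le_max_right _ _)

theorem disj_lev_levU : Slot.Disj (levU R0) (lev R0 1) := by
  intro i i' h
  have := (lev_injective R0 h).1
  omega

theorem disj_lev_root : Slot.Disj rootSlot (lev R0 1) := by
  intro i i' h
  have := congrArg (fun p : Base × ℕ => p.1.l) h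
  simp only [Slot.map, rootSlot, rootBase, lev, levPos_l] at this
  omega

theorem tr_lev_zero (X : Op Root) :
    Slot.tr (lev R0 0) (lev R0 0) X =
      Slot.tr (levU R0) (levU R0) X + Slot.tr (lev R0 1) (lev R0 1) X := by
  refine ContinuousLinearMap.ext fun v => lp.ext (funext fun z => ?_)
  show push _ (lev R0 0).map_inj (diag ℕ X (pull _ (lev R0 0).map_inj v)) z =
    push _ (levU R0).map_inj (diag Unit X (pull _ (levU R0).map_inj v)) z +
      push _ (lev R0 1).map_inj (diag ℕ X (pull _ (lev R0 1).map_inj v)) z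
  by_cases h : ∃ i, (lev R0 0).map i = z
  · obtain ⟨⟨k, i⟩, rfl⟩ := h
    rw [push_apply]
    cases k with
    | zero =>
      rw [show (lev R0 0).map (0, i) = (levU R0).map ((), i) from rfl, push_apply,
        push_apply_not (lev R0 1).map_inj _ _ fun i' hi' => disj_lev_levU R0 _ _ hi'.symm,
        add_zero]
      rfl
    | succ k =>
      rw [show (lev R0 0).map (k + 1, i) = (lev R0 1).map (k, i) from rfl, push_apply,
        push_apply_not (levU R0).map_inj _ _ fun i' hi' => disj_lev_levU R0 _ _ hi', zero_add]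
      rfl
  · rw [push_apply_not _ _ _ fun i hi => h ⟨i, hi⟩,
      push_apply_not _ _ _ fun i hi => h ⟨(0, i.2), hi⟩,
      push_apply_not _ _ _ fun i hi => h ⟨(i.1 + 1, i.2), hi⟩, add_zero]

theorem delta_apply {V : Type} [DecidableEq V] (b : V) (l : ℕ) (i : V × ℕ) :
    delta b l i = if i = (b, l) then 1 else 0 := by
  by_cases h : i = (b, l) <;> simp [delta, lp.single_apply, h]

theorem entry_root {S : Op Base} {T0 : Op Root} (h : AtRoots rootBase S T0) (a b : Root) :
    entry (rootBase a) (rootBase b) S = entry a b T0 := by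
  classical
  refine ext_single fun l => lp.ext (funext fun k => ?_)
  rw [entry_apply, entry_apply, fin_single, fin_single, ← inner_delta, ← inner_delta]
  exact h.1 a b k l

theorem eq_tr_root {S : Op Base} {T0 : Op Root} (h : AtRoots rootBase S T0) :
    S = Slot.tr rootSlot rootSlot T0 := by
  classical
  refine ext_single fun i => lp.ext (funext fun z => ?_)
  obtain ⟨y, l⟩ := i
  obtain ⟨x, k⟩ := z
  have hS : S (lp.single (E := fun _ : Base × ℕ => ℂ) 2 (y, l) 1) (x, k) =
      ⟪delta x k, S (delta y l)⟫_ℂ := by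
    rw [inner_delta]
    simp only [delta]

  rw [hS]
  show _ = push _ rootSlot.map_inj
    (diag Unit T0 (pull _ rootSlot.map_inj (lp.single (E := fun _ : Base × ℕ => ℂ) 2 (y, l) 1)))
      (x, k)
  by_cases hx : x ∈ Set.range rootBase
  · obtain ⟨a, rfl⟩ := hx
    rw [show ((rootBase a, k) : Base × ℕ) = rootSlot.map ((), (a, k)) from rfl, push_apply]
    show _ = T0 (pull _ (slot_injective ()) (pull _ rootSlot.map_inj
      (lp.single (E := fun _ : Base × ℕ => ℂ) 2 (y, l) 1))) (a, k)
    by_cases hy : y ∈ Set.range rootBase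
    · obtain ⟨b, rfl⟩ := hy
      rw [h.1 a b k l, inner_delta]
      refine congrArg (fun w => T0 w (a, k)) (lp.ext (funext fun i => ?_))
      obtain ⟨r, j⟩ := i
      rw [pull_apply, pull_apply, delta_apply, lp.single_apply, Pi.single_apply]
      simp only [Slot.map, rootSlot, Prod.mk.injEq, rootBase_injective.eq_iff]
    · rw [h.2 (rootBase a) y k l (Or.inr hy)]
      have : pull _ (slot_injective ()) (pull _ rootSlot.map_inj
          (lp.single (E := fun _ : Base × ℕ => ℂ) 2 (y, l) 1)) = 0 := by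
        refine lp.ext (funext fun i => ?_)
        rw [pull_apply, pull_apply, lp.single_apply, Pi.single_eq_of_ne]
        · rfl
        · intro e
          exact hy ⟨i.1, (Prod.ext_iff.1 e).1⟩
      rw [this, map_zero]
      rfl
  · rw [h.2 x y k l (Or.inl hx), push_apply_not]
    intro i hi
    exact hx ⟨i.2.1, (Prod.ext_iff.1 hi).1⟩

theorem mem_rootCtrl {S : Op Base} {T0 : Op Root} {R : ℝ} (hR : R ≤ R0)
    (h : AtRoots rootBase S T0) (hp : ∀ x y, R < dist x y → entry x y S = 0)
    (hc : InCtrl baseCtrl S) : InCtrl (rootCtrl R0) T0 := by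
  refine ⟨⟨R, fun a b hab => ?_⟩, fun a b => entry_root h a b ▸ hc.2 _ _⟩
  rw [← entry_root h a b]
  refine hp _ _ (not_le.1 fun hd => hab ?_)
  by_cases hn : a.1 = b.1
  · exact Or.inr ⟨hn, hd⟩
  · rw [baseDist_cross (x := rootBase a) (y := rootBase b) hn] at hd
    simp only [rootBase] at hd
    have h1 : (0 : ℝ) ≤ baseGraph.dist (⟨a.1, a.2, 0⟩ : Base) (baseRoot a.1) := Nat.cast_nonneg _
    have h2 : (0 : ℝ) ≤ baseGraph.dist (⟨b.1, b.2, 0⟩ : Base) (baseRoot b.1) := Nat.cast_nonneg _
    have h3 : (0 : ℝ) ≤ (a.1 : ℝ) := Nat.cast_nonneg _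
    have h4 : (0 : ℝ) ≤ (b.1 : ℝ) := Nat.cast_nonneg _
    refine Or.inl ⟨?_, ?_⟩
    · exact_mod_cast (show (a.1 : ℝ) ≤ R0 by linarith)
    · exact_mod_cast (show (b.1 : ℝ) ≤ R0 by linarith)

theorem tr_root_injective : Function.Injective (Slot.tr rootSlot rootSlot) := by
  intro X Y h
  have h1 : diag Unit X = diag Unit Y := by
    refine ContinuousLinearMap.ext fun v => ?_
    have := congrArg (fun T : Op Base => pull _ rootSlot.map_inj
      (T (push _ rootSlot.map_inj v))) h
    simpa [Slot.tr, ← ContinuousLinearMap.comp_apply (pull _ rootSlot.map_inj), pull_push,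
      show ∀ w, pull _ rootSlot.map_inj (push _ rootSlot.map_inj w) = w from
        fun w => DFunLike.congr_fun (pull_push rootSlot.map_inj) w] using this
  refine ContinuousLinearMap.ext fun w => lp.ext (funext fun i => ?_)
  have := congrArg (fun T => T (push _ (slot_injective ()) w) ((), i)) h1
  simpa [diag_apply, show pull _ (slot_injective ()) (push _ (slot_injective ()) w) = w from
    DFunLike.congr_fun (pull_push (slot_injective ())) w] using this

end VP212.Swindle
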