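import Vale.Agent.P212.Swindle.Alg

/-!
P212, swindle: the collapsed space has bounded geometry, and its Roe algebra and the algebra
on the roots are control algebras.
-/

open scoped InnerProductSpace

namespace VP212.Swindle

variable {V : Type}

theorem isFibreProj_finout (x : V) : IsFibreProj x ((fin x).comp (fout x)) := by
  refine fun v y k => ⟨fun h => ?_, fun h => ?_⟩
  · subst h
    exact push_apply (slot_injective y) _ k
  · exact push_apply_not (slot_injective x) _ _ fun i hi => h (Prod.ext_iff.1 hi).1.symm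

theorem eq_finout {x : V} {e : Op V} (he : IsFibreProj x e) : e = (fin x).comp (fout x) := by
  ext v ⟨y, k⟩
  by_cases h : y = x
  · exact ((he v y k).1 h).trans ((isFibreProj_finout x v y k).1 h).symm
  · exact ((he v y k).2 h).trans ((isFibreProj_finout x v y k).2 h).symm

theorem fout_fin (x : V) : (fout x).comp (fin x) = ContinuousLinearMap.id ℂ (L2 ℕ) :=
  pull_push _

theorem compact_entry_iff (x y : V) (T : Op V) :
    IsCompactOperator (entry x y T) ↔
      ∀ e e', IsFibreProj x e → IsFibreProj y e' → IsCompactOperator (e.comp (T.comp e')) := by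
  refine ⟨fun h e e' he he' => ?_, fun h => ?_⟩
  · rw [eq_finout he, eq_finout he']
    have : IsCompactOperator ((fin x).comp ((entry x y T).comp (fout y))) :=
      (h.comp_clm (fout y)).clm_comp (fin x)
    convert this using 2
    simp [entry, ContinuousLinearMap.comp_assoc]
  · have h1 : IsCompactOperator
        ((fout x).comp ((((fin x).comp (fout x)).comp (T.comp ((fin y).comp (fout y)))).comp
          (fin y))) :=
      ((h _ _ (isFibreProj_finout x) (isFibreProj_finout y)).comp_clm (fin y)).clm_comp (fout x)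
    have h2 : ∀ v, fout y (fin y v) = v := fun v => DFunLike.congr_fun (fout_fin y) v
    have h3 : ∀ v, fout x (fin x v) = v := fun v => DFunLike.congr_fun (fout_fin x) v
    convert h1 using 2
    ext v : 1
    simp [entry, h2, h3]

theorem baseDist_self_comp {x y : Base} (h : x.n = y.n) : dist x y = (baseGraph.dist x y : ℝ) :=
  show joinDist baseGraph Base.n baseRoot x y = _ by simp [joinDist, h]

theorem baseDist_cross {x y : Base} (h : x.n ≠ y.n) : dist x y =
    (baseGraph.dist x (baseRoot x.n) : ℝ) + baseGraph.dist y (baseRoot y.n) + (x.n + y.n + 1) :=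
  show joinDist baseGraph Base.n baseRoot x y = _ by simp [joinDist, h]

theorem base_reachable {x y : Base} (h : x.n = y.n) : baseGraph.Reachable x y :=
  (base_reach_root x).trans (h ▸ (base_reach_root y).symm)

theorem base_discrete : UniformlyDiscrete Base := by
  refine ⟨1, one_pos, fun x y hxy => ?_⟩
  by_cases h : x.n = y.n
  · rw [baseDist_self_comp h]
    have := (base_reachable h).pos_dist_of_ne hxy
    exact_mod_cast this
  · rw [baseDist_cross h]
    have h1 : (0 : ℝ) ≤ x.n := Nat.cast_nonneg _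
    have h2 : (0 : ℝ) ≤ y.n := Nat.cast_nonneg _
    have h3 : (0 : ℝ) ≤ baseGraph.dist x (baseRoot x.n) := Nat.cast_nonneg _
    have h4 : (0 : ℝ) ≤ baseGraph.dist y (baseRoot y.n) := Nat.cast_nonneg _
    linarith

/-- The seven moves of the collapsed space. -/
def move : Fin 7 → Base → Base
  | 0, x => x
  | 1, x => ⟨x.n, (x.z.1 + 1, x.z.2), x.l⟩
  | 2, x => ⟨x.n, (x.z.1, x.z.2 + 1), x.l⟩
  | 3, x => ⟨x.n, x.z, x.l + 1⟩
  | 4, x => ⟨x.n, (x.z.1 - 1, x.z.2), x.l⟩
  | 5, x => ⟨x.n, (x.z.1, x.z.2 - 1), x.l⟩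
  | 6, x => ⟨x.n, x.z, x.l - 1⟩

theorem adj_move {x y : Base} (h : baseGraph.Adj x y) : ∃ i, y = move i x := by
  obtain ⟨-, h | h⟩ := (SimpleGraph.fromRel_adj _ _ _).1 h
  · rcases h with rfl | rfl | rfl
    exacts [⟨1, rfl⟩, ⟨2, rfl⟩, ⟨3, rfl⟩]
  · obtain ⟨n, z, l⟩ := y
    rcases h with rfl | rfl | rfl
    · exact ⟨4, by simp [move]⟩
    · exact ⟨5, by simp [move]⟩
    · exact ⟨6, by simp [move]⟩

/-- The points within `k` moves. -/
noncomputable def nbhd : ℕ → Base → Finset Base
  | 0, x => {x}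
  | k + 1, x => by
    classical exact (nbhd k x).biUnion fun y => Finset.univ.image fun i => move i y

theorem nbhd_card (k : ℕ) (x : Base) : (nbhd k x).card ≤ 7 ^ k := by
  classical
  induction k with
  | zero => simp [nbhd]
  | succ k ih =>
    simp only [nbhd]
    refine (Finset.card_biUnion_le_card_mul _ _ 7 fun y _ => Finset.card_image_le).trans ?_
    rw [pow_succ]
    exact Nat.mul_le_mul_right 7 ih

theorem nbhd_mono {k k' : ℕ} (h : k ≤ k') (x : Base) : nbhd k x ⊆ nbhd k' x := by
  classical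
  induction h with
  | refl => exact subset_rfl
  | @step m _ ih =>
    refine ih.trans fun y hy => ?_
    simp only [nbhd, Finset.mem_biUnion, Finset.mem_image, Finset.mem_univ, true_and]
    exact ⟨y, hy, 0, rfl⟩

theorem walk_nbhd {x y : Base} (p : baseGraph.Walk x y) : y ∈ nbhd p.length x := by
  classical
  induction p using SimpleGraph.Walk.concatRec with
  | Hnil => simp [nbhd]
  | @Hconcat u v w p h ih =>
    rw [SimpleGraph.Walk.length_concat]
    simp only [nbhd, Finset.mem_biUnion, Finset.mem_image, Finset.mem_univ, true_and]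
    obtain ⟨i, hi⟩ := adj_move h
    exact ⟨v, ih, i, hi.symm⟩

theorem dist_nbhd {x y : Base} (h : x.n = y.n) {M : ℕ} (hd : baseGraph.dist x y ≤ M) :
    y ∈ nbhd M x := by
  obtain ⟨p, hp⟩ := (base_reachable h).exists_walk_length_eq_dist
  exact nbhd_mono (hp ▸ hd) x (walk_nbhd p)

theorem base_boundedGeometry : BoundedGeometry Base := by
  classical
  intro R
  obtain ⟨M, hM⟩ := exists_nat_ge R
  refine ⟨(M + 2) * 7 ^ M, fun x => ?_⟩
  let F := nbhd M x ∪ (Finset.range (M + 1)).biUnion fun m => nbhd M (baseRoot m)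
  have hsub : Metric.closedBall x R ⊆ F := by
    intro y hy
    rw [Metric.mem_closedBall, dist_comm] at hy
    simp only [F, Finset.coe_union, Set.mem_union, Finset.mem_coe, Finset.mem_biUnion,
      Finset.mem_range]
    by_cases h : x.n = y.n
    · rw [baseDist_self_comp h] at hy
      exact Or.inl (dist_nbhd h (by exact_mod_cast hy.trans hM))
    · rw [baseDist_cross h] at hy
      have h1 : (0 : ℝ) ≤ x.n := Nat.cast_nonneg _
      have h2 : (0 : ℝ) ≤ baseGraph.dist x (baseRoot x.n) := Nat.cast_nonneg _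
      have h3 : (0 : ℝ) ≤ baseGraph.dist y (baseRoot y.n) := Nat.cast_nonneg _
      have h4 : (0 : ℝ) ≤ y.n := Nat.cast_nonneg _
      have h5 : (y.n : ℝ) < (M + 1 : ℕ) := by push_cast; linarith
      have h6 : (baseGraph.dist (baseRoot y.n) y : ℝ) ≤ (M : ℕ) := by
        rw [SimpleGraph.dist_comm]; linarith
      exact Or.inr ⟨y.n, by exact_mod_cast h5,
        dist_nbhd (x := baseRoot y.n) (y := y) rfl (by exact_mod_cast h6)⟩
  have hcard : F.card ≤ (M + 2) * 7 ^ M := by
    refine (Finset.card_union_le _ _).trans ?_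
    have := Finset.card_biUnion_le_card_mul (Finset.range (M + 1))
      (fun m => nbhd M (baseRoot m)) (7 ^ M) fun m _ => nbhd_card M _
    rw [Finset.card_range] at this
    have := nbhd_card M x
    nlinarith
  refine ⟨F.finite_toSet.subset hsub, ?_⟩
  exact (Set.ncard_le_ncard hsub F.finite_toSet).trans (by rwa [Set.ncard_coe_finset])

/-- Finite propagation on the collapsed space. -/
noncomputable def baseCtrl : Ctrl Base where
  rel R x y := dist x y ≤ R
  mono h h' := h'.trans h
  fin R y := by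
    obtain ⟨N, hN⟩ := base_boundedGeometry R
    exact (hN y).1.subset fun x hx => Metric.mem_closedBall.2 hx
  comp R R' := ⟨R + R', fun x z y h h' => (dist_triangle x z y).trans (add_le_add h h')⟩

theorem isRoe_iff (T : RoeSpace Base →L[ℂ] RoeSpace Base) : IsRoe T ↔ InCtrl baseCtrl T := by
  constructor
  · rintro ⟨⟨R, hR⟩, h⟩
    exact ⟨⟨R, fun x y hxy => (entry_eq_zero_iff x y T).2 fun k l => hR x y k l (not_le.1 hxy)⟩,
      fun x y => (compact_entry_iff x y T).2 (h x y)⟩
  · rintro ⟨⟨R, hR⟩, h⟩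
    exact ⟨⟨R, fun x y k l hxy => (entry_eq_zero_iff x y T).1 (hR x y (not_le.2 hxy)) k l⟩,
      fun x y => (compact_entry_iff x y T).1 (h x y)⟩

/-- The root vertices. -/
abbrev Root : Type := Σ n, Grid n

/-- Support on the roots: finite propagation inside the components of large index, arbitrary
inside the finitely many others. -/
def rootCtrl (R0 : ℕ) : Ctrl Root where
  rel R r r' := (r.1 ≤ R0 ∧ r'.1 ≤ R0) ∨ (r.1 = r'.1 ∧ dist (rootBase r) (rootBase r') ≤ R)
  mono h := Or.imp_right fun h' => ⟨h'.1, h'.2.trans h⟩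
  fin R r' := by
    have : ({n | n ≤ R0 ∨ n = r'.1} : Set ℕ).Finite :=
      (Set.finite_le_nat R0).union (Set.finite_singleton r'.1)
    refine (this.biUnion fun n _ => Set.finite_range (Sigma.mk n : Grid n → Root)).subset ?_
    rintro r h
    rcases h with ⟨h, -⟩ | ⟨h, -⟩
    · exact Set.mem_iUnion₂.2 ⟨r.1, Or.inl h, r.2, rfl⟩
    · exact Set.mem_iUnion₂.2 ⟨r.1, Or.inr h, r.2, rfl⟩
  comp R R' := by
    refine ⟨R + R', ?_⟩
    rintro x z y (⟨h1, h2⟩ | ⟨h1, h2⟩) (⟨h3, h4⟩ | ⟨h3, h4⟩)
    · exact Or.inl ⟨h1, h4⟩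
    · exact Or.inl ⟨h1, h3 ▸ h2⟩
    · exact Or.inl ⟨h1 ▸ h3, h4⟩
    · exact Or.inr ⟨h1.trans h3, (dist_triangle _ _ _).trans (add_le_add h2 h4)⟩

end VP212.Swindle
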